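import Vale.Agent.P366Q.G.Sk
import Vale.Agent.P366Y.C.Defs
import Vale.Agent.P366Z.Newt0

/-!
# P366Q, block S: the stability of the positive mass theorem; definitions and statements

The flat end is perturbed to `eu + φ² ds²` with `s = ⟨e, y⟩` and `φ = τ χ w ^ (-2 γ)`. With this
power of `w` the second derivatives of `w` enter `cl` only through `lap w`.
-/

open MeasureTheory Metric Filter Topology Set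
open scoped ContDiff ENNReal
open Vale.Agent.P366.Stmt

noncomputable section

/-! ### Euclidean space, at unit scale -/

namespace Vale.Agent.P366Z.Sb

open Vale.Agent.P366Y.C (gb ww)
open Nw (ht)

variable {n : ℕ}

/-- the derivative in the direction `e` -/
def D (e : E n) (u : E n → ℝ) : E n → ℝ := ip (eu n) (ht e) u

/-- the Laplacian in the directions orthogonal to `e` -/
def lp (e : E n) (u : E n → ℝ) (y : E n) : ℝ := lap (eu n) u y - D e (D e u) y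

/-- the perturbed metric -/
abbrev Gm (φ : E n → ℝ) (e : E n) : Field n := gb (eu n) φ (ht e)

/-- the size of the perturbation -/
def ph (τ : ℝ) (χ w : E n → ℝ) (y : E n) : ℝ := τ * χ y * w y ^ (-(2 * gam n))

/-- the potential -/
def mm (φ w : E n → ℝ) (e y : E n) : ℝ :=
  w y * cl (Gm φ e) w y / (4 * gam n) + w y * lap (eu n) w y / (1 + φ y ^ 2)

/-- **BAR**: the barrier. Hint: `b = Θ (1 - exp (-K p))` with `p = (1 + ‖y‖ ^ 2) ^ (-1 / 2)`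
(superharmonic), `Θ` concave, nondecreasing, the identity below `1 - exp (-K p (R₂))` and constant
above `1 - exp (-K p (R₁))` (as in `SchX.ex_F`); `wl_comp` three times with `q = ‖y‖ ^ 2`;
`ip (Gm φ e) q q ≥ 4 q / (1 + φ²)`; `lap (Gm φ e) q` from `dv_gb`, `gr_gb` is bounded by the
`C¹` norm of `φ`; finally multiply by a large constant. -/
def BAR : Prop := ∀ (n : ℕ) (A R₁ R₂ L : ℝ), 3 ≤ n → 1 ≤ R₁ → R₁ < R₂ → ∃ (b : E n → ℝ) (B : ℝ),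
  Smooth b ∧ (∀ y, 0 ≤ b y ∧ b y ≤ B ∧ ‖fderiv ℝ b y‖ ≤ B) ∧ (∃ c, ∀ y, ‖y‖ ≤ R₁ → b y = c) ∧
    Tendsto b (cocompact (E n)) (𝓝 0) ∧ ∀ (w φ : E n → ℝ) (e : E n), Smooth w → Smooth φ →
      ‖e‖ = 1 → (∀ y, R₁ ≤ ‖y‖ → 1 / 8 ≤ w y ∧ w y ≤ A ∧ gn (eu n) w y ≤ A / ‖y‖ ^ 2) →
      (∀ y, |φ y| ≤ 1 ∧ gn (eu n) φ y ≤ 1) → (∀ y, ‖y‖ < R₂ ∨ L < ‖y‖ → φ y = 0) →
      ∀ y, R₁ ≤ ‖y‖ → wl (Gm φ e) w b y ≤ 0 ∧ (R₂ ≤ ‖y‖ → ‖y‖ ≤ L → wl (Gm φ e) w b y ≤ -1)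

/-- **TUBE**: the cut-off function of a long thin tube. Hint: `χ y = χ₀ (T (y - x))` with a linear
isometry `T` which maps `e` to the first basis vector (`reflection_sub`, `Nw.lap_iso`),
`χ₀ y = st (2 - y₀² / l²) * st (2 - 2 (‖y‖² - y₀²) / σ²)`; the volume of the tube is `O(l)` (a box)
and `|∂₀ χ₀| ≤ C / l`. Last part: average `w (z + K e) - w z` over the ball of radius `σ / 2`,
`|D w| ≤ λ / 2 + (D w)² / (2 λ)`. -/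
def TUBE : Prop := ∀ (n : ℕ) (σ K η : ℝ), 0 < n → 0 < σ → 0 < K → 0 < η → ∃ ε > (0 : ℝ),
  ∀ ε₁ > (0 : ℝ), ∃ B L : ℝ, ∀ x e : E n, ‖e‖ = 1 → ∃ χ : E n → ℝ, Smooth χ ∧
    (∀ y, 0 ≤ χ y ∧ χ y ≤ 1 ∧ gn (eu n) χ y ≤ B ∧ |lp e (fun z => χ z ^ 2) y| ≤ B) ∧
    (∀ y, χ y ≠ 0 → ‖y - x‖ ≤ L ∧ ‖y - x‖ ^ 2 ≤ ht e (y - x) ^ 2 + σ ^ 2) ∧
    ∫ y, D e χ y ^ 2 ≤ ε₁ ∧ ∀ (w : E n → ℝ) (c c' : ℝ), Smooth w →
      ∫ y, χ y ^ 2 * D e w y ^ 2 ≤ ε → (∀ y ∈ ball x σ, |w y - c| ≤ η) →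
      (∀ y ∈ ball (x + K • e) σ, |w y - c'| ≤ η) → |c - c'| ≤ 3 * η

/-- **SC**: the scalar curvature of the perturbed metric -/
def SC : Prop := ∀ (n : ℕ) (φ : E n → ℝ) (e : E n), Smooth φ → (∀ y, 0 ≤ φ y) → ‖e‖ = 1 → ∀ y,
  ww (eu n) φ (ht e) y * scal (Gm φ e) y = -2 * lp e (ww (eu n) φ (ht e)) y

/-- **PTA**: the potential is of second order and contains no second derivatives of `w` -/
def PTA : Prop := ∀ (n : ℕ) (A B : ℝ), 3 ≤ n → ∃ C > (0 : ℝ), ∀ (w χ : E n → ℝ) (e : E n) (τ : ℝ),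
  Smooth w → (∀ y, 0 < w y) → Smooth χ → (∀ y, 0 ≤ χ y) → ‖e‖ = 1 → 0 < τ → τ ≤ 1 → ∀ y,
    1 / 8 ≤ w y → w y ≤ A → gn (eu n) w y ≤ A → χ y ≤ 1 → gn (eu n) χ y ≤ B →
    |lp e (fun z => χ z ^ 2) y| ≤ B → |mm (ph τ χ w) w e y| ≤ C * τ ^ 2 ∧ |ph τ χ w y| ≤ C * τ ∧
      gn (eu n) (ph τ χ w) y ≤ C * τ

/-- **PTB**: the integral of the potential -/
def PTB : Prop := ∀ (n : ℕ) (A : ℝ), 3 ≤ n → ∃ c > (0 : ℝ), ∃ C > (0 : ℝ),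
  ∀ (w χ : E n → ℝ) (e : E n) (τ : ℝ), Smooth w → (∀ y, 0 < w y) → Smooth χ → (∀ y, 0 ≤ χ y) →
    ‖e‖ = 1 → 0 < τ → HasCompactSupport χ →
    (∀ y, χ y ≠ 0 → 1 / 8 ≤ w y ∧ w y ≤ A ∧ lap (eu n) w y ≤ 0 ∧ |ph τ χ w y| ≤ 1) →
    τ ^ 2 * (c * (∫ y, χ y ^ 2 * D e w y ^ 2) - C * ∫ y, D e χ y ^ 2) ≤
      ∫ y, mm (ph τ χ w) w e y * dens (Gm (ph τ χ w) e) y

end Vale.Agent.P366Z.Sb

/-! ### manifolds -/

open Vale.Agent.P366 Vale.Agent.P366Z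

namespace Vale.Agent.P366M.G

/-- the exterior of the unit ball with the factor `w` is, up to scaling, the end of data with
room -/
def RigE {n : ℕ} (w : E n → ℝ) : Prop := ∀ θ > (0 : ℝ), ∃ (M' : Type) (_ : Mfe n M')
  (g₀ : Fld n M') (v' f : M' → ℝ) (O : Set M') (h : M' → ℝ) (ρ a : ℝ), 0 < a ∧
    Pr g₀ v' f O h ρ θ ∧ ∀ y : E n, 1 ≤ ‖y‖ → fe v' (ρ • y) = a * w y

/-- a perturbation `G` of the flat end, with the potential `m` and the barrier `b` -/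
structure Ky {n : ℕ} (w : E n → ℝ) (β : ℝ) (G : Field n) (m b : E n → ℝ) (R₁ R₂ ε : ℝ) : Prop where
  smw : Stmt.Smooth w
  w0 : ∀ y, 0 < w y
  rig : RigE w
  asy : P366Z.Asy w 1 β
  far : ∃ S, ∀ y, 1 ≤ ‖y‖ → |P366Z.lap (P366Z.eu n) w y| ≤ S * ‖y‖ ^ (-(n + 2) : ℝ)
  lipQ : ∃ C, ∀ y, 1 < ‖y‖ → ‖fderiv ℝ (fun z => P366Z.lap (P366Z.eu n) w z / w z) y‖ ≤ C
  met : P366Z.Met G
  R1 : 1 < R₁
  R2 : R₁ ≤ R₂
  smm : Stmt.Smooth m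
  smb : Stmt.Smooth b
  out : ∀ y, ‖y‖ ≤ R₁ ∨ R₂ ≤ ‖y‖ → G y = P366Z.eu n y ∧ m y = 0
  cst : ∃ c, ∀ y, ‖y‖ ≤ R₁ → b y = c
  bd : ∀ y, 0 ≤ b y ∧ b y ≤ ε
  ε1 : ε ≤ 1 / 50
  lip : ∃ C, ∀ y, ‖fderiv ℝ b y‖ ≤ C
  lim : Tendsto b (cocompact (E n)) (𝓝 0)
  sup : ∀ y, R₁ ≤ ‖y‖ → P366Z.wl G w b y ≤ -(2 * |m y|)
  pos : ∀ y, 1 < ‖y‖ → 4 * gam n * m y < w y * P366Z.cl G w y

/-- **KEY**: the positive mass theorem for the perturbed end. Hint: `θ / 2` in `RigE`; on `M'` the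
metric `γ` is `g₀` for `‖px x‖ < R₁ ρ` and `G (ρ⁻¹ • px x)` for `ρ < ‖px x‖`; the weight
`U = exp (f / (2 γ)) v'` is `Wa`; `SUBS.cpt` for `wl γ U u = a² ρ⁻² m (ρ⁻¹ • px x) u` between
`1 ∓ b (ρ⁻¹ • px x)`; `Pm γ (v' u) f O h (R₂ ρ) a β' θ`: inside
`Rf (cf (v' u) g₀) f = u ^ (-2 b) Rf (cf v' g₀) f` and `24 / 25 ≤ u ^ b ≤ 21 / 20`, outside
`cl γ (v' u) = u (cl γ v' - 4 γ μ / v')`; `Wa.hx`, `Hx1.flux`; the scaling laws of `pd chr scal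
dv lap wl cl` under `y ↦ c • y` hold without hypotheses (`lineDeriv_smul`). -/
def KEY : Prop := ∀ (n : ℕ) (w : E n → ℝ) (β : ℝ) (G : Field n) (m b : E n → ℝ) (R₁ R₂ ε : ℝ),
  3 ≤ n → Ky w β G m b R₁ R₂ ε → ∫ y, m y * P366Z.dens G y ≤
    (n - 2) * Stmt.omega n * β + ε * ∫ y, |m y| * P366Z.dens G y

/-- **NEG**: the factor is superharmonic -/
def NEG : Prop := ∀ (n : ℕ) (w : E n → ℝ), 3 ≤ n → RigE w → ∀ y, 1 < ‖y‖ →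
  P366Z.lap (P366Z.eu n) w y < 0

/-- **STAB2**: `STAB` with a Lipschitz potential -/
def STAB2 : Prop := ∀ (n : ℕ) (C₀ δ η : ℝ), 3 ≤ n → 0 < δ → 0 < η → ∃ e > (0 : ℝ),
  ∀ (M : Type) [Mfe n M] (v : M → ℝ) (a β R S : ℝ), R0 M + 1 ≤ R → 0 < a → Smooth v → S ≤ e * a →
    (∀ x, R ≤ ‖px x‖ → a / 8 ≤ v x ∧ v x ≤ C₀ * a ∧
      |lap (eu n) v x| ≤ S * ‖px x‖ ^ (-(n + 2) : ℝ)) →
    (∃ C, ∀ x, R < ‖px x‖ → ‖fd (fun y => lap (eu n) v y / v y) x‖ ≤ C) →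
    Asy v a β → Par v R (e * a ^ (-bb n) * R ^ (n - 2 : ℝ)) →
    ∀ x, (1 + δ) * R ≤ ‖px x‖ → |v x - a| ≤ η * a

end Vale.Agent.P366M.G
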