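import Vale.Agent.P366Q.S.Key0
import Vale.Agent.P366Q.G.Scf
import Vale.Agent.P366Q.B.Lift
import Vale.Agent.P366M.Solv2

/-!
# P366Q, block S: the positive mass theorem for the perturbed end
-/

open MeasureTheory Metric Filter Topology Set
open scoped ContDiff ENNReal
open Vale.Agent.P366 Vale.Agent.P366.Stmt Vale.Agent.P366Z

noncomputable section

namespace Vale.Agent.P366M.G

open P366D (Rf)
open Y.A (tw_px)
open Y.B (Pt patch)

section

variable {n : ℕ} {M : Type} [Mf0 n M] {g : Fld n M} {v u f : M → ℝ} {x : M}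

/-- the weighted scalar curvature of a conformal metric -/
theorem rf_cf (hg : Met g) (hn : 3 ≤ n) (hv : Smooth v) (v0 : ∀ x, 0 < v x) (f : M → ℝ) (x : M) :
    v x ^ (2 * bb n) * v x ^ 2 * Rf (cf v g) f x =
      v x * cl g v x - 2 * wl g v f x - v x ^ 2 * ip g f f x := by
  have h0 := v0 x
  have e : (n : ℝ) * bb n = 2 * bb n + 2 := by
    have := (nm2_pos hn).ne'
    unfold bb; field_simp; ring
  have := (Real.rpow_pos_of_pos h0 (2 * bb n)).ne'
  rw [Rf, hg.scal_cf hn hv v0, hg.lap_cf hn v0, hg.ip_cf h0, e, Real.rpow_sub_one h0.ne',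
    Real.rpow_neg h0.le, Real.rpow_neg h0.le, Real.rpow_add h0, Real.rpow_two]
  field_simp

/-- the weight of the equation -/
def kw (n : ℕ) {M : Type} (f v : M → ℝ) (x : M) : ℝ := Real.exp (f x / (2 * gam n)) * v x

theorem rf_mul (hg : Met g) (hn : 3 ≤ n) (hv : Smooth v) (v0 : ∀ x, 0 < v x) (hu : Smooth u)
    (u0 : ∀ x, 0 < u x) (hf : Smooth f) {μ : ℝ} (e : wl g (kw n f v) u x = μ * u x) :
    (u x ^ bb n) ^ 2 * Rf (cf (fun y => v y * u y) g) f x =
      Rf (cf v g) f x - 4 * gam n * μ / (v x ^ (2 * bb n) * kw n f v x ^ 2) := by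
  have h1 := rf_cf hg hn (CD.mul hv hu) (fun y => mul_pos (v0 y) (u0 y)) f x
  have h2 := rf_cf hg hn hv v0 f x
  have γ0 : gam n ≠ 0 := by rw [gam_eq hn]; linarith [bb_pos hn]
  have sE : Smooth fun y => Real.exp (f y / (2 * gam n)) := CD.exp (CD.div_const hf _)
  have h3 : ip g (fun y => Real.exp (f y / (2 * gam n))) u x =
      Real.exp (f x / (2 * gam n)) / (2 * gam n) * ip g f u x :=
    ip_comp_left (φ := fun t => Real.exp (t / (2 * gam n)))
      (by simpa [div_eq_mul_inv] using ((hasDerivAt_id (f x)).div_const (2 * gam n)).exp) (hf.diff x)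
  unfold kw at e ⊢
  rw [hg.wl_eq ((sE.diff x).mul (hv.diff x)) (hu.c2 x), ip_mul_left (sE.diff x) (hv.diff x), h3] at e
  rw [hg.cl_mul (hv.c2 x) (hu.c2 x) (v0 x).ne', hg.wl_eq (hv.diff x) (hu.c2 x),
    hg.wl_eq ((hv.diff x).mul (hu.diff x)) (hf.c2 x), ip_mul_left (hv.diff x) (hu.diff x),
    Real.mul_rpow (v0 x).le (u0 x).le, hg.ip_sy u f] at h1
  rw [hg.wl_eq (hv.diff x) (hf.c2 x)] at h2
  rw [← Real.rpow_natCast, ← Real.rpow_mul (u0 x).le, mul_comm (bb n), Nat.cast_ofNat]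
  have a1 := (Real.rpow_pos_of_pos (v0 x) (2 * bb n)).ne'
  have a2 := (Real.exp_pos (f x / (2 * gam n))).ne'
  have a3 := (v0 x).ne'
  have a4 := (u0 x).ne'
  generalize Real.exp (f x / (2 * gam n)) = E at *
  refine mul_left_cancel₀ (mul_ne_zero (mul_ne_zero a1 (pow_ne_zero 2 a3)) (pow_ne_zero 2 a4)) ?_
  have e' : μ = _ := (eq_div_iff a4).2 e.symm
  rw [e']
  field_simp at h1 h2 ⊢
  linear_combination h1 - u x * h2

theorem gn_mul (hg : Met g) (v0 : 0 < v x) (u0 : 0 < u x) (h : M → ℝ) :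
    gn (cf (fun y => v y * u y) g) h x = (u x ^ bb n)⁻¹ * gn (cf v g) h x := by
  rw [hg.gn_cf (U := fun y => v y * u y) (mul_pos v0 u0), hg.gn_cf v0, Real.mul_rpow v0.le u0.le,
    Real.rpow_neg u0.le]
  ring

theorem cf_ev {g' : Fld n M} (e : g =ᶠ[𝓝 x] g') (v : M → ℝ) : cf v g =ᶠ[𝓝 x] cf v g' :=
  e.mono fun y hy => by funext i j; rw [cf, cf, hy]

theorem rf_ev {g' : Fld n M} (e : g =ᶠ[𝓝 x] g') : Rf g f x = Rf g' f x := by
  rw [Rf, Rf, scal_of_ev e, lap_of_ev e, ip_of_eq e.eq_of_nhds]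

end

theorem shd_pt {t R P H D : ℝ} (t1 : 24 / 25 ≤ t) (t2 : t ≤ 21 / 20) (e : t ^ 2 * R = P)
    (D0 : 0 ≤ D) (h : 0 < P + 9 / 10 * H ^ 2 - 11 / 5 * D) : 0 < R + H ^ 2 - 2 * (t⁻¹ * D) := by
  have t0 : 0 < t := by linarith
  refine (mul_pos_iff_of_pos_left (pow_pos t0 2)).1 ?_
  have : t ^ 2 * (R + H ^ 2 - 2 * (t⁻¹ * D)) = P + t ^ 2 * H ^ 2 - 2 * t * D := by
    rw [← e]; field_simp
  nlinarith [mul_le_mul_of_nonneg_right (show 9 / 10 ≤ t ^ 2 by nlinarith) (sq_nonneg H),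
    mul_le_mul_of_nonneg_right t2 D0]

theorem rpow_near {n : ℕ} (hn : 3 ≤ n) {u : ℝ} (h1 : 49 / 50 ≤ u) (h2 : u ≤ 51 / 50) :
    24 / 25 ≤ u ^ bb n ∧ u ^ bb n ≤ 21 / 20 := by
  have b0 := (bb_pos hn).le
  have k1 := (Real.rpow_le_rpow_of_exponent_ge (by norm_num : (0 : ℝ) < 49 / 50) (by norm_num)
    (bb_le hn)).trans (Real.rpow_le_rpow (by norm_num) h1 b0)
  have k2 := (Real.rpow_le_rpow (by linarith) h2 b0).trans
    (Real.rpow_le_rpow_of_exponent_le (by norm_num) (bb_le hn))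
  rw [Real.rpow_two] at k1 k2
  constructor <;> linarith

variable {n : ℕ} {M : Type} [Mfe n M] {g₀ γ : Fld n M} {v f h : M → ℝ} {O : Set M} {x : M}
  {w m b : E n → ℝ} {G : Field n} {a β ρ R₁ R₂ ε θ : ℝ}

theorem wl_pxg (hx : R0 M < ‖px x‖) (G : Field n) (w b : E n → ℝ) :
    wl (fun z : M => G (px z)) (fun z => w (px z)) (fun z => b (px z)) x =
      P366Z.wl G w b (px x) := by
  obtain ⟨j, y, rfl, h⟩ := far_rep (x := x) (by linarith)
  rw [h] at hx ⊢
  have k : R0 M - 6 < ‖y‖ := by linarith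
  rw [wl_ye hx, P366Z.wl_of_ev (fj_px k G), P366Z.wl_congr (fj_px k w) (fj_px k b)]

theorem Pr.ev (P : Pr g₀ v f O h ρ θ) (e : ∀ y, ρ ≤ ‖y‖ → fe v y = w y) (hx : ρ < ‖px x‖) :
    (v =ᶠ[𝓝 x] fun z => w (px z)) ∧ (kw n f v =ᶠ[𝓝 x] fun z => w (px z)) ∧
      (f =ᶠ[𝓝 x] fun _ => 0) ∧ h =ᶠ[𝓝 x] fun _ => 0 := by
  have k : ∀ z : M, ρ < ‖px z‖ → v z = w (px z) := fun z hz => by
    rw [← e _ hz.le, fe, yp_px (by linarith [P.flat.R])]
  have := ev_lt_px hx
  exact ⟨this.mono k, this.mono fun z hz => by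
    rw [kw, (P.out z hz.le).2.2, zero_div, Real.exp_zero, one_mul, k z hz],
    this.mono fun z hz => (P.out z hz.le).2.2, this.mono fun z hz => (P.out z hz.le).2.1⟩

theorem Pr.rf_out (P : Pr g₀ v f O h ρ θ) (e : ∀ y, ρ ≤ ‖y‖ → fe v y = w y) (hn : 3 ≤ n)
    (hg : Met γ) (hx : ρ < ‖px x‖) (eγ : γ =ᶠ[𝓝 x] fun z => G (px z)) :
    v x ^ (2 * bb n) * v x ^ 2 * Rf (cf v γ) f x = w (px x) * P366Z.cl G w (px x) := by
  obtain ⟨e1, -, e2, -⟩ := P.ev e hx
  have k : R0 M + 1 / 2 < ‖px x‖ := by linarith [P.flat.R]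
  rw [rf_cf hg hn P.smv P.v0, wl_congr .rfl e2, ip_congr e2 .rfl, wl_const, ip_const_left,
    cl_congr e1, ← (tw_px G).cl (tw_px w) k, cl, cl, lap_of_ev eγ, scal_of_ev eγ, e1.eq_of_nhds]
  ring

/-- `KEY` at the scale `ρ` -/
theorem Kz.key (H : Kz w a β G m b ρ R₁ R₂ ε) (hn : 3 ≤ n) (hS : SUBS) (θ0 : 0 < θ)
    (hP : ∀ (g : Fld n M) v' R β', P366D.Pm g v' f O h R a β' θ → 0 ≤ β')
    (P : Pr g₀ v f O h ρ (θ / 2)) (e : ∀ y, ρ ≤ ‖y‖ → fe v y = w y) :
    ∫ y, m y * P366Z.dens G y ≤ (n - 2) * omega n * a * β + ε * ∫ y, |m y| * P366Z.dens G y := by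
  have r0 := P.flat.R
  have r1 := H.R1
  have r2 := H.R2
  obtain ⟨γ, T⟩ := patch (A := g₀) (B := G) r1 (by linarith) fun x h1 h2 =>
    (P.flat.eq x h1).trans (H.out _ (.inl h2)).1.symm
  have hg := T.met P.met H.met
  have hf : Flat γ R₂ := ⟨by linarith, fun x hx =>
    (T.out x (by linarith)).trans (H.out _ (.inr hx)).1⟩
  have sU : Smooth (kw n f v) := CD.mul (CD.exp (CD.div_const P.smf _)) P.smv
  have U0 : ∀ x, 0 < kw n f v x := fun x => mul_pos (Real.exp_pos _) (P.v0 x)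
  have av : Asy v a β := asy_iff.2 (asy_congr e H.asy)
  have Uv : ∀ x, ρ ≤ ‖px x‖ → kw n f v x = v x := fun x hx => by
    rw [kw, (P.out x hx).2.2, zero_div, Real.exp_zero, one_mul]
  have aU : Asy (kw n f v) a β := av.congr Uv
  have lU : ∀ x, R₂ < ‖px x‖ → lap γ (kw n f v) x = P366Z.lap (P366Z.eu n) w (px x) :=
    fun x hx => by
      rw [hf.lap_eq hx, lap_congr (P.ev e (by linarith)).2.1]
      exact (tw_px (P366Z.eu n)).lap (tw_px w) (by linarith)
  obtain ⟨S, hSw⟩ := H.far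
  have hU : Wa γ (kw n f v) := by
    refine ⟨⟨sU, ?_⟩, R₂ + 1, S, fun x hx => by
      rw [lU x (by linarith)]; exact hSw _ (by linarith)⟩
    obtain ⟨R, hR⟩ := ev_cocompact.1 ((aU.tendsto hn).eventually
      (Icc_mem_nhds (half_lt_self H.a0) (lt_add_one a)))
    obtain ⟨c, c0, hc⟩ := low_of_const sU.cont U0 (half_pos H.a0) fun y hy => (hR y hy.le).1
    obtain ⟨C₁, -, h1⟩ := bdd_of_out sU.cont (C := a + 1) fun y hy => by
      rw [Real.norm_of_nonneg (U0 y).le]; exact (hR y hy.le).2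
    obtain ⟨C₂, h2⟩ := aU.fd_bdd hn sU
    have sQ : Smooth fun y => lap γ (kw n f v) y / kw n f v y :=
      CD.div (hg.sm_lap sU) sU fun y => (U0 y).ne'
    obtain ⟨C₃, -, h3⟩ := bdd_of_out sQ.cont (R := R₂) (C := |S| / c) fun y hy => by
      rw [norm_div, Real.norm_of_nonneg (U0 y).le, lU y hy]
      refine div_le_div₀ (abs_nonneg _) ((hSw _ (by linarith)).trans ?_) c0 (hc y)
      exact (mul_le_mul_of_nonneg_right (le_abs_self S) (by positivity)).trans
        (mul_le_of_le_one_right (abs_nonneg _) (Real.rpow_le_one_of_one_le_of_nonpos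
          (by linarith [R0_ge M]) (neg_nonpos.2 (by positivity))))
    obtain ⟨Q, hQ⟩ := H.lipQ
    obtain ⟨C₄, -, h4⟩ := fd_bdd_of_out sQ.one (R := R₂) (C := Q) fun y hy => by
      rw [fd_congr (g := fun z => P366Z.lap (P366Z.eu n) w (px z) / w (px z))
        ((ev_lt_px hy).mono fun z hz => by
          rw [lU z hz, (P.ev e (by linarith)).2.1.eq_of_nhds]),
        fd_px (by linarith) fun z => P366Z.lap (P366Z.eu n) w z / w z]
      exact hQ _ (by linarith)
    exact ⟨c, c0, max (max C₁ C₂) (max C₃ C₄), fun x => ⟨hc x, le_max_of_le_left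
      (le_max_of_le_left ((le_abs_self _).trans (h1 x))), le_max_of_le_left (le_max_of_le_right (h2 x)),
      le_max_of_le_right (le_max_of_le_left (h3 x)), le_max_of_le_right (le_max_of_le_right (h4 x))⟩⟩
  have sb : Smooth fun x : M => b (px x) := smooth_px H.smb
  have wb : ∀ x : M, wl γ (kw n f v) (fun x => b (px x)) x ≤ -(2 * |m (px x)|) := fun x => by
    rcases lt_or_ge ‖px x‖ R₁ with k | k
    · obtain ⟨c, hc⟩ := H.cst
      rw [wl_congr .rfl ((ev_px_lt k).mono fun z hz => hc _ hz.le), wl_const,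
        (H.out _ (.inl k.le)).2]
      simp
    · rw [wl_of_ev (T.ev_out (by linarith)), wl_congr (P.ev e (by linarith)).2.1 .rfl,
        wl_pxg (by linarith)]
      exact H.sup _ k
  have bb1 : ∀ y, b y ≤ 1 / 50 := fun y => (H.bd y).2.trans H.ε1
  obtain ⟨L, hL⟩ := H.lip
  obtain ⟨L', -, hL'⟩ := fd_bdd_of_out sb.one (R := ρ) (C := L) fun y hy => by
    rw [fd_px (by linarith)]; exact hL _
  obtain ⟨K, hK⟩ := exists_bl sb.diff (A := 1 / 50) (fun x => by
    rw [Real.norm_of_nonneg (H.bd _).1]; exact bb1 _) hL'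
  obtain ⟨u, su, ⟨A, bu⟩, lu, eu⟩ := hS.cpt (by omega) hg hf hU.wt (smooth_px H.smm)
    (f := fun _ => 0) cd_const (R' := R₂) (fun x hx => ⟨(H.out _ (.inr hx)).2, rfl⟩)
    (u₁ := fun x => 1 - b (px x)) (u₂ := fun x => b (px x) + 1) (cd_const.sub sb.two)
    (sb.two.add cd_const) ⟨_, ((bl_const 1).sub hK).1⟩ ⟨_, hK.add (bl_const 1)⟩
    (fun x => by linarith [(H.bd (px x)).1]) (fun x => by
      rw [wl_const_sub]
      nlinarith [wb x, (H.bd (px x)).1, bb1 (px x), le_abs_self (m (px x)), neg_abs_le (m (px x))])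
    fun x => by
      rw [wl_add_const]
      nlinarith [wb x, (H.bd (px x)).1, bb1 (px x), le_abs_self (m (px x)), neg_abs_le (m (px x))]
  simp only [sub_zero] at eu
  have u1 : ∀ x, 49 / 50 ≤ u x ∧ u x ≤ 51 / 50 := fun x =>
    ⟨by linarith [(lu x).1, bb1 (px x)], by linarith [(lu x).2, bb1 (px x)]⟩
  have u0 : ∀ x, 0 < u x := fun x => by linarith [(u1 x).1]
  have tb := H.lim.comp (tendsto_px (M := M))
  have tu : Tendsto u (cocompact M) (𝓝 1) := tendsto_of_tendsto_of_tendsto_of_le_of_le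
    (by simpa using tb.const_sub 1) (by simpa using tb.add_const 1) (fun x => (lu x).1)
      fun x => (lu x).2
  obtain ⟨β', hx⟩ := hU.hx hn hg hf su bu.1 (R' := R₂)
    (fun x hx => by rw [eu, (H.out _ (.inr hx)).2, zero_mul]) aU.asyE (tendsto_cocompact_iff.1 tu)
  have gout : ∀ x, ρ < ‖px x‖ → gn (cf v γ) h x = 0 := fun x k => by
    rw [gn_congr (P.ev e k).2.2.2, gn_zero fun i => pd_const 0 i x]
  obtain ⟨h₁, hh⟩ := P.big
  have b0 := hP γ (fun x => v x * u x) R₂ _ ⟨hg, hf, CD.mul P.smv su,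
    fun x => mul_pos (P.v0 x) (u0 x), H.a0, by
      simpa using hx.one.asy.congr (R := ρ) fun x k => by rw [Uv x k, mul_comm], P.smf,
    ⟨P.opn, P.smh, P.h0, P.cls, fun x xO => ?_, h₁, fun x xO k => ?_⟩,
    fun x k => P.out x (by linarith)⟩
  · have fl := hx.one.flux hn hg hf
    have sw : Continuous fun x => wl γ (kw n f v) u x * dens γ x :=
      (hg.sm_wl sU su).cont.mul hg.sm_dens.cont
    have k : ∀ F : ℝ → ℝ, F 0 = 0 → ∫ x : M, F (m (px x)) * dens γ x =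
        ∫ y, F (m y) * P366Z.dens G y := fun F F0 => integral_out (R := R₁) (by linarith)
      (fun x hx => by rw [(H.out _ (.inl hx.le)).2, F0, zero_mul])
      (fun y hy => by rw [(H.out _ (.inl hy.le)).2, F0, zero_mul]) fun y hy => by
        have p : px (yp y : M) = y := px_yp (by linarith)
        rw [dens_of_eq (g' := fun z => G (px z)) (T.out _ (by rw [p]; linarith)),
          (tw_px G).dens (by rw [p]; linarith), p]
    have i3 : ∀ F : ℝ → ℝ, F 0 = 0 → Continuous F → Integrable fun x : M =>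
        F (m (px x)) * dens γ x := fun F F0 cF => integrable_of_out
      ((cF.comp (smooth_px H.smm).cont).mul hg.sm_dens.cont) (R := R₂) fun y hy => by
        rw [(H.out _ (.inr hy)).2, F0, zero_mul]
    have j1 := i3 (fun t => t) rfl continuous_id
    have j2 := i3 (fun t => |t|) abs_zero continuous_abs
    rw [← k (fun t => t) rfl, ← k (fun t => |t|) abs_zero, ← integral_const_mul]
    have := integral_mono j1 ((integrable_of_out sw (R := R₂) fun y hy => by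
      rw [eu, (H.out _ (.inr hy)).2, zero_mul, zero_mul]).add (j2.const_mul ε)) fun x => by
        have d0 := dens_nonneg γ x
        have : |m (px x) * (1 - u x)| ≤ |m (px x)| * ε := by
          rw [abs_mul]
          exact mul_le_mul_of_nonneg_left (abs_le.2 ⟨by linarith [(lu x).2, (H.bd (px x)).2],
            by linarith [(lu x).1, (H.bd (px x)).2]⟩) (abs_nonneg _)
        simp only [Pi.add_apply, eu]
        nlinarith [mul_le_mul_of_nonneg_right ((le_abs_self _).trans this) d0]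
    rw [integral_add' (hx.int_wl hg continuous_one |>.congr (.of_forall fun x => by simp))
      (j2.const_mul ε), fl, fx] at this
    have w0 : 0 ≤ (n - 2) * omega n * a :=
      (mul_pos (mul_pos (nm2_pos hn) (omega_pos (by omega))) H.a0).le
    nlinarith [mul_nonneg w0 b0]
  · obtain ⟨t1, t2⟩ := rpow_near hn (u1 x).1 (u1 x).2
    rw [gn_mul hg (P.v0 x) (u0 x)]
    refine shd_pt t1 t2 (rf_mul hg hn P.smv P.v0 su u0 P.smf (eu x)) (gn_nonneg _ _ _) ?_
    rcases lt_or_ge ‖px x‖ R₁ with k | k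
    · have := cf_ev (T.ev_in k) v
      rw [(H.out _ (.inl k.le)).2, rf_ev this, gn_of_eq this.eq_of_nhds]
      simpa using P.pos x xO
    · have k' : ρ < ‖px x‖ := by linarith
      have p : 0 < v x ^ (2 * bb n) * v x ^ 2 := by have := P.v0 x; positivity
      have := H.pos _ k'
      rw [← P.rf_out e hn hg k' (T.ev_out k'), ← div_lt_iff₀' p] at this
      rw [gout x k', Uv x k'.le]
      nlinarith [sq_nonneg (h x)]
  · obtain ⟨t1, -⟩ := rpow_near hn (u1 x).1 (u1 x).2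
    rw [gn_mul hg (P.v0 x) (u0 x)]
    have : gn (cf v γ) h x ≤ θ / 2 * h x ^ 2 := by
      rcases lt_or_ge ‖px x‖ R₁ with k' | k'
      · rw [gn_of_eq (cf_ev (T.ev_in k') v).eq_of_nhds]
        exact hh x xO k
      · rw [gout x (by linarith)]
        positivity
    have t2 : (u x ^ bb n)⁻¹ ≤ 2 := inv_le_of_inv_le₀ (by norm_num) (by linarith)
    linarith [mul_le_mul t2 this (gn_nonneg _ _ _) zero_le_two]

theorem fe_scale {v : M → ℝ} (hρ : 0 < ρ) (e : ∀ y : E n, 1 ≤ ‖y‖ → fe v (ρ • y) = a * w y)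
    (y : E n) (hy : ρ ≤ ‖y‖) : fe v y = a * w (ρ⁻¹ • y) := by
  rw [← e _ (by rwa [norm_smul, Real.norm_of_nonneg (inv_pos.2 hρ).le, le_inv_mul_iff₀ hρ,
    mul_one]), smul_inv_smul₀ hρ.ne']

/-- **KEY** -/
theorem key_of (hP : P366D.PMTI) (hS : SUBS) : KEY := by
  intro n w β G m b R₁ R₂ ε hn H
  obtain ⟨θ, θ0, hP⟩ := hP n hn
  obtain ⟨M, _, g₀, v, f, O, h, ρ, a, a0, P, e⟩ := H.rig _ (half_pos θ0)
  have ρ0 := P.flat.pos
  have k := (H.kz ρ0 a0).key hn hS θ0 (fun g v' R β' => hP M g v' f O h R a β') P (fe_scale ρ0 e)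
  have c0 : 0 < a ^ 2 * ρ⁻¹ ^ 2 := by positivity
  have k1 := Measure.integral_comp_inv_smul_of_nonneg volume
    (fun y => m y * P366Z.dens G y) ρ0.le
  have k2 := Measure.integral_comp_inv_smul_of_nonneg volume
    (fun y => |m y| * P366Z.dens G y) ρ0.le
  have e1 : ρ⁻¹ ^ (2 - n : ℝ) = ρ⁻¹ ^ 2 * ρ ^ n := by
    rw [Real.rpow_sub (inv_pos.2 ρ0), Real.rpow_two, Real.rpow_natCast, inv_pow ρ n, div_inv_eq_mul]
  simp only [abs_mul, abs_of_pos c0, mul_assoc (a ^ 2 * ρ⁻¹ ^ 2), integral_const_mul] at k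
  rw [finrank_euclideanSpace_fin, smul_eq_mul] at k1 k2
  erw [k1, k2, e1] at k
  refine le_of_mul_le_mul_left (k.trans_eq' ?_ |>.trans_eq ?_) (mul_pos c0 (pow_pos ρ0 n)) <;> ring

end Vale.Agent.P366M.G
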