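import Vale.Agent.P366Q.S.Defs
import Vale.Agent.P366D.Loha
import Vale.Agent.P366H.Far

/-!
# P366Q, block S: the factor is superharmonic
-/

open MeasureTheory Metric Filter Topology Set
open scoped ContDiff
open Vale.Agent.P366 Vale.Agent.P366.Stmt Vale.Agent.P366Z

noncomputable section

namespace Vale.Agent.P366M.G

/-- data with room are superharmonic in the end -/
theorem Pr.lap_neg {n : ℕ} {M : Type} [Mfe n M] {g₀ : Fld n M} {v f h : M → ℝ} {O : Set M}
    {ρ θ : ℝ} {x : M} (p : Pr g₀ v f O h ρ θ) (hn : 3 ≤ n) (hx : ρ < ‖px x‖) :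
    lap g₀ v x < 0 := by
  have k := p.pos x (p.out x hx.le).1
  rw [gn_congr ((ev_lt_px hx).mono fun y hy => (p.out y hy.le).2.1),
    gn_zero fun i => pd_const 0 i x, (p.out x hx.le).2.1,
    P366D.Loh.Rf_congr .rfl ((ev_lt_px hx).mono fun y hy => (p.out y hy.le).2.2), P366D.Rf,
    lap_const, ip_const_left, p.met.scal_cf hn p.smv p.v0, cl, p.flat.scal_eq hx] at k
  have c := mul_pos (Real.rpow_pos_of_pos (p.v0 x) (-(2 * bb n) - 1))
    (show 0 < 4 * gam n by linarith [gam_eq hn, bb_pos hn])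
  nlinarith

/-- **NEG** -/
theorem neg : NEG := by
  intro n w hn hw y hy
  obtain ⟨M', _, g₀, v', f, O, h, ρ, a, a0, p, e⟩ := hw 1 one_pos
  have ρ0 := p.flat.pos
  have h1 : ρ < ‖ρ • y‖ := by
    rw [norm_smul, Real.norm_of_nonneg ρ0.le]; exact lt_mul_of_one_lt_right ρ0 hy
  have h2 := p.flat.lt.trans h1
  have h3 : ρ < ‖px (yp (ρ • y) : M')‖ := by rwa [px_yp (by linarith)]
  have k := p.lap_neg hn h3
  rw [p.flat.lap_eq h3, yp, lap_ye h2, fj_eu, ← fe_eq] at k
  have k2 := mul_neg_of_pos_of_neg (pow_pos ρ0 2) k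
  rw [← P366H.lap_scale, P366Z.lap_congr (v := fun z => a * w z)
    (((isOpen_lt continuous_const continuous_norm).eventually_mem hy).mono fun z hz => e z hz.le),
    P366Z.lap_const_mul] at k2
  exact neg_of_mul_neg_right k2 a0.le

end Vale.Agent.P366M.G
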