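import Vale.Agent.P366Q.S.Stab
import Vale.Agent.P366Q.S.Key
import Vale.Agent.P366Q.S.Neg
import Vale.Agent.P366Q.T.Subs

/-!
# P366Q, block S: the stability follows from the positive mass theorem
-/

namespace Vale.Agent.P366M.G

/-- **STAB2** from the positive mass theorem -/
theorem stab2 (hP : P366D.PMTI) : STAB2 := stab_of (key_of hP subs) neg

end Vale.Agent.P366M.G
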