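import Vale.Agent.P366Q.S.Defs
import Vale.Agent.P366Y.C.Gb

/-!
# P366Q, block S, row BAR: the barrier
-/

open MeasureTheory Metric Filter Topology Set
open scoped ContDiff ENNReal
open Vale.Agent.P366.Stmt

noncomputable section

namespace Vale.Agent.P366Z.Sb

open Vale.Agent.P366Y.C (gb ww)
open Vale.Agent.P366Y.C.GbH
open Nw (ht sm_ht pd_ht ht_eq lap_ht)

namespace BarH

variable {n : ℕ}

theorem hd_s {t : ℝ} (ht : 0 < t) : HasDerivAt (fun t => (√t)⁻¹) (-((√t)⁻¹ ^ 3 / 2)) t := by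
  have h := Real.sqrt_pos.2 ht
  refine ((Real.hasDerivAt_sqrt ht.ne').fun_inv h.ne').congr_deriv ?_
  field_simp

/-- the profile -/
theorem prof {K a b : ℝ} (hK : 0 < K) (ha : 0 < a) (hab : a < b) : ∃ F g : ℝ → ℝ,
    ContDiff ℝ ∞ F ∧ deriv F = (fun t => -g t) ∧ (∀ t, 0 ≤ g t) ∧ (∀ t ≤ a, g t = 0) ∧
    (∀ t, g t ≤ (√t)⁻¹ ^ 3) ∧ (∀ t ≥ b, g t = (√t)⁻¹ ^ 3 * Real.exp (-(K * (√t)⁻¹))) ∧
    (∀ t > 0, g t * ((K * (√t)⁻¹ ^ 3 - 3 * (√t)⁻¹ ^ 2) / 2) ≤ deriv g t) ∧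
    ∀ t ≥ b, F t = 2 / K * (1 - Real.exp (-(K * (√t)⁻¹))) := by
  obtain ⟨ψ, hψ⟩ : ∃ ψ : ℝ → ℝ, ψ = fun t => Real.smoothTransition ((t - a) / (b - a)) := ⟨_, rfl⟩
  obtain ⟨g, hg⟩ : ∃ g : ℝ → ℝ,
    g = fun t => ψ t * ((√t)⁻¹ ^ 3 * Real.exp (-(K * (√t)⁻¹))) := ⟨_, rfl⟩
  have d := sub_pos.2 hab
  have p1 : ContDiff ℝ ∞ ψ := hψ ▸ Real.smoothTransition.contDiff.comp (by fun_prop)
  have p2 : Monotone ψ := hψ ▸ fun s t h => Real.smoothTransition.monotone (by gcongr)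
  have p3 : ∀ t ≤ a, ψ t = 0 := hψ ▸ fun t h => Real.smoothTransition.zero_of_nonpos
    (div_nonpos_of_nonpos_of_nonneg (sub_nonpos.2 h) d.le)
  have p4 : ∀ t ≥ b, ψ t = 1 := hψ ▸ fun t h => Real.smoothTransition.one_of_one_le
    ((one_le_div d).2 (sub_le_sub_right h a))
  have p5 : ∀ t, 0 ≤ ψ t ∧ ψ t ≤ 1 := hψ ▸ fun t =>
    ⟨Real.smoothTransition.nonneg _, Real.smoothTransition.le_one _⟩
  have g0 : ∀ t ≤ a, g t = 0 := hg ▸ fun t h => by simp [p3 t h]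
  have g1 : ContDiff ℝ ∞ g := contDiff_iff_contDiffAt.2 fun t => by
    rcases lt_or_ge t a with h | h
    · exact contDiffAt_const.congr_of_eventuallyEq
        ((gt_mem_nhds h).mono fun s hs => g0 s hs.le)
    · have h0 := ha.trans_le h
      have s1 : ContDiffAt ℝ ∞ (fun t => (√t)⁻¹) t :=
        (Real.contDiffAt_sqrt h0.ne').inv (Real.sqrt_pos.2 h0).ne'
      exact hg ▸ p1.contDiffAt.mul ((s1.pow 3).mul (contDiffAt_const.mul s1).neg.exp)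
  have c1 : ∀ c t, HasDerivAt (fun t => c - ∫ s in b..t, g s) (-g t) t := fun c t =>
    (g1.continuous.integral_hasStrictDerivAt b t).hasDerivAt.const_sub c
  have c2 : ∀ c, deriv (fun t => c - ∫ s in b..t, g s) = fun t => -g t := fun c =>
    funext fun t => (c1 c t).deriv
  have g2 : ∀ t ≥ b, g t = (√t)⁻¹ ^ 3 * Real.exp (-(K * (√t)⁻¹)) := hg ▸ fun t h => by
    simp [p4 t h]
  refine ⟨_, g, contDiff_infty_iff_deriv.2 ⟨fun t => (c1 (2 / K * (1 - Real.exp (-(K * (√b)⁻¹))))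
    t).differentiableAt, (c2 _).symm ▸ g1.neg⟩, c2 _, hg ▸ fun t => ?_, g0, hg ▸ fun t => ?_, g2,
    fun t h => ?_, fun t h => ?_⟩
  · have := (p5 t).1
    positivity
  · exact (mul_le_of_le_one_left (by positivity) (p5 t).2).trans (mul_le_of_le_one_right
      (by positivity) (Real.exp_le_one_iff.2 (neg_nonpos.2 (by positivity))))
  · have s1 := hd_s h
    have := ((p1.differentiable (by simp) t).hasDerivAt.fun_mul
      ((s1.fun_pow 3).fun_mul (s1.const_mul K).fun_neg.exp)).deriv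
    rw [hg, this]
    have k : 0 ≤ deriv ψ t * ((√t)⁻¹ ^ 3 * Real.exp (-(K * (√t)⁻¹))) :=
      mul_nonneg p2.deriv_nonneg (by positivity)
    refine le_trans (le_of_eq ?_) (le_add_of_nonneg_left k)
    push_cast
    ring
  · have := intervalIntegral.integral_eq_sub_of_hasDerivAt (a := b) (b := t) (f' := g)
      (f := fun t => 2 / K * Real.exp (-(K * (√t)⁻¹))) (fun s hs => by
        rw [uIcc_of_le h] at hs
        refine (((hd_s (ha.trans (hab.trans_le hs.1))).const_mul K).fun_neg.exp.const_mul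
          (2 / K)).congr_deriv ?_
        rw [g2 s hs.1]
        field_simp) (g1.continuous.intervalIntegrable _ _)
    rw [this]
    ring

variable {φ : E n → ℝ} {e y : E n}

theorem ip_ee (he : ‖e‖ = 1) (y : E n) : ip (eu n) (ht e) (ht e) y = 1 := by
  rw [ip_eu]
  simp only [pd_ht, ← sq]
  rw [← norm_sq_eq, he, one_pow]

theorem ip_eq (e y : E n) : ip (eu n) (ht e) (fun z => ‖z‖ ^ 2) y = 2 * ht e y := by
  rw [ip_eu, ht_eq, Finset.mul_sum]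
  exact Finset.sum_congr rfl fun i _ => by rw [pd_ht, pd_normSq]; ring

theorem gn_q (y : E n) : gn (eu n) (fun z => ‖z‖ ^ 2) y = 2 * ‖y‖ := by
  rw [gn, ip_eu_normSq, show 4 * ‖y‖ ^ 2 = (2 * ‖y‖) ^ 2 by ring, Real.sqrt_sq (by positivity)]

theorem gn_le (φ u : E n → ℝ) (e y : E n) : gn (Gm φ e) u y ≤ gn (eu n) u y :=
  Real.sqrt_le_sqrt (by
    rw [ip_gb met_eu, mul_assoc, ← sq]
    exact sub_le_self _ (by positivity))

theorem abs_ht (he : ‖e‖ = 1) (y : E n) : |ht e y| ≤ ‖y‖ := by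
  simpa [he, ht] using abs_real_inner_le_norm e y

theorem ip_ge (he : ‖e‖ = 1) (h : |φ y| ≤ 1) :
    2 * ‖y‖ ^ 2 ≤ ip (Gm φ e) (fun z => ‖z‖ ^ 2) (fun z => ‖z‖ ^ 2) y := by
  rw [ip_gb met_eu, ip_eu_normSq, ip_eq, ww_sq met_eu, ip_ee he, le_sub_comm,
    div_le_iff₀ (by positivity)]
  have h1 : φ y ^ 2 ≤ 1 := (sq_le_one_iff_abs_le_one _).2 h
  have h2 : ht e y ^ 2 ≤ ‖y‖ ^ 2 := sq_le_sq' (abs_le.1 (abs_ht he y)).1 (abs_le.1 (abs_ht he y)).2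
  nlinarith [mul_le_mul_of_nonneg_left h2 (sq_nonneg (φ y)),
    mul_le_mul_of_nonneg_right h1 (sq_nonneg ‖y‖)]

/-- the Laplacian of the square of the norm is bounded below -/
theorem lap_ge : ∃ C ≥ (0 : ℝ), ∀ (φ : E n → ℝ) (e y : E n), Smooth φ → ‖e‖ = 1 → |φ y| ≤ 1 →
    gn (eu n) φ y ≤ 1 → -(C * (1 + ‖y‖)) ≤ lap (Gm φ e) (fun z => ‖z‖ ^ 2) y := by
  have p : ∀ t : ℝ, 0 < 1 + t ^ 2 := fun t => by positivity
  have hH : ContDiff ℝ ∞ fun t : ℝ => √(1 + t ^ 2) := ContDiff.sqrt (by fun_prop) fun t => (p t).ne'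
  have hF : ContDiff ℝ ∞ fun t : ℝ => t ^ 2 / √(1 + t ^ 2) :=
    ContDiff.div (by fun_prop) hH fun t => (Real.sqrt_pos.2 (p t)).ne'
  obtain ⟨C, hC⟩ := (isCompact_Icc (a := (-1 : ℝ)) (b := 1)).exists_bound_of_continuousOn
    ((hH.continuous_deriv (by simp)).prodMk ((hF.continuous_deriv (by simp)).prodMk
      hF.continuous)).continuousOn
  have C0 : 0 ≤ C := (norm_nonneg _).trans (hC 0 (by simp))
  refine ⟨4 * C, by positivity, fun φ e y hφ he h1 h2 => ?_⟩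
  have k := hC _ (abs_le.1 h1)
  simp only [Prod.norm_mk, max_le_iff, Real.norm_eq_abs] at k
  obtain ⟨k1, k2, k3⟩ := k
  have eW : ww (eu n) φ (ht e) = fun z => √(1 + φ z ^ 2) := funext fun z => by
    rw [ww, ip_ee he, mul_one]
  have W1 : 1 ≤ √(1 + φ y ^ 2) := Real.one_le_sqrt.2 (le_add_of_nonneg_right (sq_nonneg _))
  have dW : Smooth fun z => √(1 + φ z ^ 2) := hH.comp hφ
  have dF : Smooth fun z => φ z ^ 2 / √(1 + φ z ^ 2) := hF.comp hφ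
  have dh : Smooth fun z => -2 * ht e z := contDiff_const.mul (sm_ht e)
  have e1 : (fun i z => ww (eu n) φ (ht e) z * gr (Gm φ e) (fun z => ‖z‖ ^ 2) i z) = fun i z =>
      √(1 + φ z ^ 2) * gr (eu n) (fun z => ‖z‖ ^ 2) i z +
        φ z ^ 2 / √(1 + φ z ^ 2) * (-2 * ht e z) * gr (eu n) (ht e) i z := by
    funext i z
    have := Real.sqrt_pos.2 (p (φ z))
    rw [gr_gb met_eu, ip_eq, eW]
    field_simp
    ring
  have q1 := met_eu.diff_gr (contDiff_normSq (n := n)).contDiffAt (x := y)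
  have q2 := met_eu.diff_gr (sm_ht e).contDiffAt (x := y)
  have q3 := (dF.diff y).fun_mul (dh.diff y)
  have i1 := met_eu.abs_ip_le φ (fun z => ‖z‖ ^ 2) y
  have i2 := met_eu.abs_ip_le φ (ht e) y
  rw [gn_q] at i1
  rw [gn, gn, ip_ee he, Real.sqrt_one, mul_one] at i2
  have i3 := abs_ht he y
  have e2 := met_eu.dv_smul (dW.diff y) q1
  have e3 := met_eu.dv_smul q3 q2
  rw [← ip_eq_gr, ip_comp_left (hH.differentiable (by simp) _).hasDerivAt (hφ.diff y)] at e2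
  rw [← ip_eq_gr, ip_mul_left (dF.diff y) (dh.diff y),
    ip_comp_left (hF.differentiable (by simp) _).hasDerivAt (hφ.diff y),
    ip_of_pd (u := fun z => -2 * ht e z) (fun i => pd_const_mul _ i) fun i => (one_mul _).symm,
    ip_ee he] at e3
  rw [lap, dv_gb met_eu, e1, met_eu.dv_add (fun i => (dW.diff y).fun_mul (q1 i))
    fun i => q3.fun_mul (q2 i), e2, e3, eW, le_div_iff₀ (by positivity)]
  change _ ≤ _ * lap _ _ _ + _ + (_ * lap _ _ _ + _)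
  rw [lap_eu_normSq, lap_ht]
  have j1 := abs_le.1 ((abs_mul _ _).trans_le (mul_le_mul k1 (i1.trans
    (mul_le_of_le_one_left (by positivity) h2)) (abs_nonneg _) C0))
  have j2 := abs_le.1 ((abs_mul _ _).trans_le (mul_le_mul i3 ((abs_mul _ _).trans_le
    (mul_le_mul k2 (i2.trans h2) (abs_nonneg _) C0)) (abs_nonneg _) (norm_nonneg y)))
  have j3 : 0 ≤ √(1 + φ y ^ 2) * (2 * n) := by positivity
  have j4 := mul_le_mul_of_nonneg_left W1 (show 0 ≤ 4 * C * (1 + ‖y‖) by positivity)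
  nlinarith [(abs_le.1 k3).2]

/-- the operator on a function of the square of the norm -/
theorem wl_le {G : Field n} (hG : Met G) {F g : ℝ → ℝ} {w : E n → ℝ} {A k m : ℝ}
    (hF : ContDiff ℝ ∞ F) (hd : deriv F = fun t => -g t) (hw : Smooth w) (w0 : 1 / 8 ≤ w y)
    (g0 : 0 ≤ g (‖y‖ ^ 2)) (hg : g (‖y‖ ^ 2) * k ≤ deriv g (‖y‖ ^ 2))
    (hI : |ip G w (fun z => ‖z‖ ^ 2) y| ≤ A) (hm : m ≤ k * ip G (fun z => ‖z‖ ^ 2)
      (fun z => ‖z‖ ^ 2) y + lap G (fun z => ‖z‖ ^ 2) y - 16 * A) :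
    wl G w (fun z => F (‖z‖ ^ 2)) y ≤ -(w y ^ 2 * g (‖y‖ ^ 2) * m) := by
  rw [hG.wl_comp (hw.diff y) contDiff_normSq.contDiffAt (hF.contDiffAt.of_le (by norm_cast)),
    hG.wl_eq (hw.diff y) contDiff_normSq.contDiffAt, hd, deriv.fun_neg]
  have h1 := mul_le_mul_of_nonneg_right hg (mul_nonneg (sq_nonneg (w y))
    (hG.ip_nonneg (fun z => ‖z‖ ^ 2) y))
  have h2 := mul_le_mul_of_nonneg_left hm (mul_nonneg (sq_nonneg (w y)) g0)
  have h3 : -(8 * w y * A) ≤ ip G w (fun z => ‖z‖ ^ 2) y := by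
    nlinarith [(abs_le.1 hI).1, (abs_nonneg _).trans hI]
  nlinarith [mul_le_mul_of_nonneg_left h3 (mul_nonneg (by linarith : 0 ≤ w y) g0)]

theorem ip_w {w : E n → ℝ} {A : ℝ} (y0 : 0 < ‖y‖) (h : gn (eu n) w y ≤ A / ‖y‖ ^ 2) :
    gn (eu n) w y * gn (eu n) (fun z => ‖z‖ ^ 2) y ≤ 2 * |A| * ‖y‖⁻¹ := by
  rw [gn_q]
  refine (mul_le_mul_of_nonneg_right (h.trans (div_le_div_of_nonneg_right (le_abs_self A)
    (by positivity))) (by positivity)).trans_eq ?_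
  field_simp

theorem ar1 {r s K A C L P Q : ℝ} (s0 : 0 < s) (s1 : s * r = 1) (r1 : 1 ≤ r) (hr : r ≤ L)
    (A0 : 0 ≤ A) (C0 : 0 ≤ C) (hK : L * (4 + C * (1 + L) + 32 * A) ≤ K) (hP : 2 * r ^ 2 ≤ P)
    (hQ : -(C * (1 + r)) ≤ Q) : 1 ≤ (K * s ^ 3 - 3 * s ^ 2) / 2 * P + Q - 16 * (2 * A * s) := by
  have p : 0 ≤ C * (1 + L) + 32 * A := add_nonneg (mul_nonneg C0 (by linarith)) (by positivity)
  have s2 : s ≤ 1 := by nlinarith
  have b0 : 1 ≤ L * s := by nlinarith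
  have b1 : 4 + C * (1 + L) + 32 * A ≤ K * s := by nlinarith
  have b2 := mul_le_mul_of_nonneg_left hP
    (show 0 ≤ (K * s ^ 3 - 3 * s ^ 2) / 2 by nlinarith [sq_nonneg s])
  have b3 : (K * s ^ 3 - 3 * s ^ 2) / 2 * (2 * r ^ 2) = K * s - 3 := by
    linear_combination (K * s - 3) * (s * r + 1) * s1
  nlinarith [mul_le_mul_of_nonneg_left hr C0, mul_le_of_le_one_right A0 s2]

theorem ar2 {r s K A m : ℝ} (s0 : 0 < s) (s1 : s * r = 1) (hK : 16 * A + 1 ≤ K) (hm : 3 ≤ m) :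
    0 ≤ (K * s ^ 3 - 3 * s ^ 2) / 2 * (4 * r ^ 2) + 2 * m - 16 * (2 * A * s) := by
  have b3 : (K * s ^ 3 - 3 * s ^ 2) / 2 * (4 * r ^ 2) = 2 * (K * s) - 6 := by
    linear_combination (2 * (K * s) - 6) * (s * r + 1) * s1
  nlinarith

theorem ar3 {r s K L w : ℝ} (s0 : 0 < s) (s1 : s * r = 1) (r1 : 1 ≤ r) (hr : r ≤ L) (K0 : 0 < K)
    (hw : 1 / 8 ≤ w) : 1 ≤ 64 * (L + 1) ^ 3 * Real.exp K *
      (w ^ 2 * (s ^ 3 * Real.exp (-(K * s))) * 1) := by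
  have s2 : s ≤ 1 := by nlinarith
  have c1 : 1 ≤ ((L + 1) * s) ^ 3 := one_le_pow₀ (by nlinarith)
  have c2 : 1 ≤ Real.exp K * Real.exp (-(K * s)) := by
    rw [← Real.exp_add]
    exact Real.one_le_exp (by nlinarith)
  have c3 : 1 ≤ 64 * w ^ 2 := by nlinarith
  exact (one_le_mul_of_one_le_of_one_le (one_le_mul_of_one_le_of_one_le c1 c2) c3).trans_eq
    (by ring)

end BarH

open BarH in
theorem bar : BAR := by
  intro n A R₁ R₂ L hn h1 h2
  obtain ⟨C, C0, hC⟩ := lap_ge (n := n)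
  obtain ⟨K, K1, K2⟩ : ∃ K : ℝ, 16 * |A| + 1 ≤ K ∧ |L| * (4 + C * (1 + |L|) + 32 * |A|) ≤ K :=
    ⟨_, le_max_left _ _, le_max_right _ _⟩
  have K0 : 0 < K := by linarith [abs_nonneg A]
  obtain ⟨F, g, f1, f2, g0, g1, g2, g3, g4, f3⟩ := prof K0 (show 0 < R₁ ^ 2 by positivity)
    (show R₁ ^ 2 < R₂ ^ 2 by gcongr)
  obtain ⟨Λ, Λ0, hΛ⟩ : ∃ Λ > (0 : ℝ), Λ = 64 * (|L| + 1) ^ 3 * Real.exp K :=
    ⟨_, by positivity, rfl⟩
  have dF := f1.differentiable (by simp)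
  have an : Antitone F := antitone_of_deriv_nonpos dF fun t => f2 ▸ neg_nonpos.2 (g0 t)
  have f4 : ∀ t ≤ R₁ ^ 2, F t = F (R₁ ^ 2) := fun t h =>
    (constant_of_derivWithin_zero dF.differentiableOn (fun s hs => by
      rw [(dF s).derivWithin (uniqueDiffOn_Icc (hs.1.trans_lt hs.2) s (Ico_subset_Icc_self hs)), f2]
      simp [g1 s hs.2.le]) _ (right_mem_Icc.2 h)).symm
  have sb : Smooth fun y : E n => F (‖y‖ ^ 2) := f1.comp contDiff_normSq
  refine ⟨fun y => Λ * F (‖y‖ ^ 2), Λ * max (F (R₁ ^ 2)) 2, contDiff_const.mul sb,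
    fun y => ⟨mul_nonneg Λ0.le ?_, mul_le_mul_of_nonneg_left (le_max_of_le_left ?_) Λ0.le, ?_⟩,
    ⟨_, fun y hy => congrArg (Λ * ·) (f4 _ (by gcongr))⟩, ?_, fun w φ e hw hφ he H1 H2 H3 y hy => ?_⟩
  · refine le_trans ?_ (an (le_max_left _ (R₂ ^ 2)))
    rw [f3 _ (le_max_right _ _)]
    exact mul_nonneg (by positivity) (sub_nonneg.2 (Real.exp_le_one_iff.2
      (neg_nonpos.2 (by positivity))))
  · exact (le_total _ _).elim (fun h => (f4 _ h).le) fun h => an h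
  · rw [← gn_eu (Smooth.diff (contDiff_const.mul sb) y), gn_comp (φ := fun t => Λ * F t)
      ((dF _).hasDerivAt.const_mul Λ) (diff2 contDiff_normSq.contDiffAt), gn_q, f2, abs_mul,
      abs_of_pos Λ0, abs_neg, abs_of_nonneg (g0 _), mul_assoc]
    refine mul_le_mul_of_nonneg_left (le_max_of_le_right ?_) Λ0.le
    rcases le_total ‖y‖ R₁ with h | h
    · simp [g1 _ (show ‖y‖ ^ 2 ≤ R₁ ^ 2 by gcongr)]
    · have y0 : 0 < ‖y‖ := by linarith
      refine (mul_le_mul_of_nonneg_right (g2 _) (by positivity)).trans ?_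
      rw [Real.sqrt_sq y0.le]
      field_simp
      nlinarith
  · have t1 : Tendsto (fun y : E n => ‖y‖) (cocompact _) atTop := tendsto_norm_cocompact_atTop
    have t2 : Continuous fun s : ℝ => Λ * (2 / K * (1 - Real.exp (-(K * s)))) := by fun_prop
    refine Tendsto.congr' ?_ (by
      simpa using (t2.tendsto 0).comp (tendsto_inv_atTop_zero.comp t1))
    filter_upwards [t1.eventually_ge_atTop R₂] with y hy
    rw [f3 _ (show R₂ ^ 2 ≤ ‖y‖ ^ 2 by gcongr; linarith), Real.sqrt_sq (norm_nonneg _)]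
    simp
  have y1 := h1.trans hy
  have y0 : 0 < ‖y‖ := by linarith
  obtain ⟨w1, -, w3⟩ := H1 y hy
  have s0 := inv_pos.2 y0
  have s1 := inv_mul_cancel₀ y0.ne'
  have k1 := g4 (‖y‖ ^ 2) (by positivity)
  rw [Real.sqrt_sq y0.le] at k1
  have k3 := ip_w y0 w3
  have main : R₂ ≤ ‖y‖ → ‖y‖ ≤ L → wl (Gm φ e) w (fun y => Λ * F (‖y‖ ^ 2)) y ≤ -1 := by
    intro a1 a2
    have hG : Met (Gm φ e) := met_gb met_eu hφ (sm_ht e)
    have a3 := a2.trans (le_abs_self L)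
    have b4 := wl_le hG f1 f2 hw w1 (g0 _) k1 ((hG.abs_ip_le _ _ y).trans ((mul_le_mul
      (gn_le _ _ _ _) (gn_le _ _ _ _) (gn_nonneg _ _ _) (gn_nonneg _ _ _)).trans k3))
      (ar1 s0 s1 y1 a3 (abs_nonneg A) C0 K2 (ip_ge he (H2 y).1) (hC φ e y hφ he (H2 y).1 (H2 y).2))
    have b5 := ar3 s0 s1 y1 a3 K0 w1
    rw [← hΛ, ← Real.sqrt_sq y0.le, ← g3 _ (pow_le_pow_left₀ (by linarith) a1 2)] at b5
    rw [wl_const_mul]
    linarith [mul_le_mul_of_nonneg_left b4 Λ0.le]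
  refine ⟨?_, main⟩
  by_cases h : ‖y‖ < R₂ ∨ L < ‖y‖
  · have ev : Gm φ e =ᶠ[𝓝 y] eu n := by
      have : ∀ᶠ z in 𝓝 y, ‖z‖ < R₂ ∨ L < ‖z‖ := h.elim
        (fun h => (continuous_norm.continuousAt.eventually_lt_const h).mono fun _ => .inl)
        fun h => (continuous_norm.continuousAt.eventually_const_lt h).mono fun _ => .inr
      filter_upwards [this] with z hz
      funext i j
      simp [gb, H3 z hz]
    have b4 := wl_le (m := 0) met_eu f1 f2 hw w1 (g0 _) k1 ((met_eu.abs_ip_le _ _ y).trans k3) (by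
      rw [ip_eu_normSq, lap_eu_normSq]
      exact ar2 s0 s1 K1 (by exact_mod_cast hn))
    rw [wl_of_ev ev, wl_const_mul]
    exact mul_nonpos_of_nonneg_of_nonpos Λ0.le (by simpa using b4)
  · rw [not_or, not_lt, not_lt] at h
    linarith [main h.1 h.2]

end Vale.Agent.P366Z.Sb
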