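import Vale.Agent.P366Q.S.Defs
import Vale.Agent.P366Y.C.Gb

/-!
# P366Q, block S: the calculus of the derivative in one direction and of the perturbed metric
-/

open MeasureTheory Metric Filter Topology Set
open scoped ContDiff ENNReal
open Vale.Agent.P366.Stmt

noncomputable section

namespace Vale.Agent.P366Z.Sb

open Vale.Agent.P366Y.C (gb ww)
open Vale.Agent.P366Y.C.GbH Nw

variable {n : ℕ} {e y : E n} {u v φ : E n → ℝ}

theorem D_eq (e : E n) (u : E n → ℝ) (y : E n) : D e u y = ∑ i, e i * pd i u y := by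
  simp only [D, ip_eu, pd_ht]

theorem D_fd (hu : DifferentiableAt ℝ u y) : D e u y = fderiv ℝ u y e := by
  rw [D_eq, fderiv_eq_sum hu]

theorem ip_ht' (e : E n) (u : E n → ℝ) (y : E n) : ip (eu n) u (ht e) y = D e u y :=
  met_eu.ip_sy _ _ _

theorem sm_D (hu : Smooth u) (e : E n) : Smooth (D e u) := met_eu.sm_ip (sm_ht e) hu

theorem sm_lp (hu : Smooth u) (e : E n) : Smooth (lp e u) :=
  ContDiff.sub (met_eu.sm_lap hu) (sm_D (sm_D hu e) e)

theorem D_ht (he : ‖e‖ = 1) (y : E n) : D e (ht e) y = 1 := by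
  simp only [D_eq, pd_ht, ← sq]
  rw [← norm_sq_eq, he, one_pow]

theorem gn_ht (he : ‖e‖ = 1) (y : E n) : gn (eu n) (ht e) y = 1 := by
  rw [gn, ← D, D_ht he, Real.sqrt_one]

theorem abs_D_le (he : ‖e‖ = 1) (u : E n → ℝ) (y : E n) : |D e u y| ≤ gn (eu n) u y := by
  simpa only [gn_ht he, one_mul, D] using met_eu.abs_ip_le (ht e) u y

theorem D_congr (h : u =ᶠ[𝓝 y] v) : D e u y = D e v y := ip_congr EventuallyEq.rfl h

theorem D_congr_ev (h : u =ᶠ[𝓝 y] v) : D e u =ᶠ[𝓝 y] D e v :=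
  h.eventuallyEq_nhds.mono fun _ hz => D_congr hz

theorem lp_congr (h : u =ᶠ[𝓝 y] v) : lp e u y = lp e v y := by
  rw [lp, lp, lap_congr h, D_congr (D_congr_ev h)]

theorem D_const (e : E n) (c : ℝ) : D e (fun _ => c) = fun _ => 0 :=
  funext fun _ => ip_const_right c

theorem lp_const (e : E n) (c : ℝ) (y : E n) : lp e (fun _ => c) y = 0 := by
  rw [lp, lap_const, D_const, D_const, sub_zero]

theorem D_mul (hu : DifferentiableAt ℝ u y) (hv : DifferentiableAt ℝ v y) :
    D e (fun z => u z * v z) y = v y * D e u y + u y * D e v y := ip_mul_right hu hv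

theorem D_add (hu : DifferentiableAt ℝ u y) (hv : DifferentiableAt ℝ v y) :
    D e (fun z => u z + v z) y = D e u y + D e v y := ip_add_right hu hv

theorem D_comp {F : ℝ → ℝ} {a : ℝ} (hF : HasDerivAt F a (u y)) (hu : DifferentiableAt ℝ u y) :
    D e (fun z => F (u z)) y = a * D e u y := ip_comp_right hF hu

theorem D_const_mul (c : ℝ) : D e (fun z => c * u z) y = c * D e u y := by
  simp only [D_eq, pd_const_mul, Finset.mul_sum, mul_left_comm]

theorem lp_const_mul (c : ℝ) : lp e (fun z => c * u z) y = c * lp e u y := by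
  rw [lp, lp, lap_const_mul, show D e (fun z => c * u z) = fun z => c * D e u z from
    funext fun _ => D_const_mul c, D_const_mul, mul_sub]

theorem lp_add_const (c : ℝ) : lp e (fun z => c + u z) y = lp e u y := by
  rw [lp, lp, funext fun z => add_comm c (u z), lap_add_const,
    show D e (fun z => u z + c) = D e u from funext fun _ => by simp only [D_eq, pd_add_const]]

theorem lp_mul (hu : Smooth u) (hv : Smooth v) : lp e (fun z => u z * v z) y =
    v y * lp e u y + u y * lp e v y + 2 * (ip (eu n) u v y - D e u y * D e v y) := by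
  rw [lp, lp, lp, met_eu.lap_mul (hu.c2 y) (hv.c2 y),
    show D e (fun z => u z * v z) = fun z => v z * D e u z + u z * D e v z from
      funext fun z => D_mul (hu.diff z) (hv.diff z),
    D_add ((hv.diff y).fun_mul ((sm_D hu e).diff y)) ((hu.diff y).fun_mul ((sm_D hv e).diff y)),
    D_mul (hv.diff y) ((sm_D hu e).diff y), D_mul (hu.diff y) ((sm_D hv e).diff y)]
  ring

theorem lp_rpow (hu : Smooth u) (h0 : ∀ z, 0 < u z) (p : ℝ) : lp e (fun z => u z ^ p) y =
    p * u y ^ (p - 1) * lp e u y + p * (p - 1) * u y ^ (p - 2) * (ip (eu n) u u y - D e u y ^ 2) := by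
  have d : ∀ q z, HasDerivAt (fun t : ℝ => t ^ q) (q * u z ^ (q - 1)) (u z) := fun q z =>
    Real.hasDerivAt_rpow_const (Or.inl (h0 z).ne')
  have e1 : ∀ i, pd i (pd i fun z => u z ^ p) y = p * u y ^ (p - 1) * pd i (pd i u) y +
      p * (p - 1) * u y ^ (p - 2) * (pd i u y * pd i u y) := fun i => by
    rw [show (pd i fun z => u z ^ p) = fun z => p * (u z ^ (p - 1) * pd i u z) from
      funext fun z => by rw [pd_comp (d p z) (hu.diff z), mul_assoc], pd_const_mul,
      pd_mul ((hu.rpow h0 _).diff y) ((hu.pd i).diff y), pd_comp (d _ y) (hu.diff y),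
      show p - 1 - 1 = p - 2 by ring]
    ring
  rw [lp, lp, show D e (fun z => u z ^ p) = fun z => p * (u z ^ (p - 1) * D e u z) from
      funext fun z => by rw [D_comp (d p z) (hu.diff z), mul_assoc], D_const_mul,
    D_mul ((hu.rpow h0 _).diff y) ((sm_D hu e).diff y), D_comp (d _ y) (hu.diff y),
    show p - 1 - 1 = p - 2 by ring, lap_eu, lap_eu, ip_eu]
  simp only [e1, Finset.sum_add_distrib, ← Finset.mul_sum]
  ring

theorem gn_mul_le (hu : DifferentiableAt ℝ u y) (hv : DifferentiableAt ℝ v y) :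
    gn (eu n) (fun z => u z * v z) y ≤ |v y| * gn (eu n) u y + |u y| * gn (eu n) v y := by
  rw [gn_eu (hu.fun_mul hv), gn_eu hu, gn_eu hv, fderiv_fun_mul hu hv, add_comm]
  refine (norm_add_le _ _).trans (le_of_eq ?_)
  rw [norm_smul, norm_smul, Real.norm_eq_abs, Real.norm_eq_abs]

/-! ### the perturbed metric -/

/-- `W = √(1 + φ²)` -/
abbrev Wd (φ : E n → ℝ) (e : E n) : E n → ℝ := ww (eu n) φ (ht e)

theorem met_Gm (hφ : Smooth φ) (e : E n) : Met (Gm φ e) := met_gb met_eu hφ (sm_ht e)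

theorem sm_W (hφ : Smooth φ) (e : E n) : Smooth (Wd φ e) := sm_ww met_eu hφ (sm_ht e)

theorem one_le_W (φ : E n → ℝ) (e y : E n) : 1 ≤ Wd φ e y := one_le_ww met_eu φ _ y

theorem W_pos (φ : E n → ℝ) (e y : E n) : 0 < Wd φ e y := one_pos.trans_le (one_le_W φ e y)

theorem W_sq (he : ‖e‖ = 1) (φ : E n → ℝ) (y : E n) : Wd φ e y ^ 2 = 1 + φ y ^ 2 := by
  rw [ww_sq met_eu, ← D, D_ht he, mul_one]

theorem dens_Gm (φ : E n → ℝ) (e y : E n) : dens (Gm φ e) y = Wd φ e y := by
  rw [dens_gb met_eu, dens_eu, mul_one]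

theorem Gm_zero (h : φ y = 0) (e : E n) : Gm φ e y = eu n y := by
  funext i j
  simp [gb, h]

theorem W_zero (h : φ y = 0) (e : E n) : Wd φ e y = 1 := by simp [ww, h]

theorem ip_Gm (he : ‖e‖ = 1) (φ u v : E n → ℝ) (y : E n) :
    ip (Gm φ e) u v y = ip (eu n) u v y - φ y ^ 2 / (1 + φ y ^ 2) * (D e u y * D e v y) := by
  rw [ip_gb met_eu, W_sq he, ← D, ← D]
  ring

theorem pd_W (he : ‖e‖ = 1) (hφ : Smooth φ) (i : Fin n) (y : E n) :
    pd i (Wd φ e) y = φ y / Wd φ e y * pd i φ y := by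
  have h := pd_pow ((sm_W hφ e).diff y) 2 i
  rw [funext (W_sq he φ), pd_const_add, pd_pow (hφ.diff y)] at h
  have := (W_pos φ e y).ne'
  field_simp
  norm_num at h
  linarith

theorem sm_H (hφ : Smooth φ) (hu : Smooth u) (e : E n) :
    Smooth fun z => φ z ^ 2 / Wd φ e z * D e u z :=
  ContDiff.mul (ContDiff.div (ContDiff.pow hφ 2) (sm_W hφ e) fun z => (W_pos φ e z).ne') (sm_D hu e)

/-- the Laplacian of the perturbed metric -/
theorem lap_Gm (hφ : Smooth φ) (hu : Smooth u) (e y : E n) : Wd φ e y * lap (Gm φ e) u y =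
    Wd φ e y * lap (eu n) u y + ip (eu n) (Wd φ e) u y -
      D e (fun z => φ z ^ 2 / Wd φ e z * D e u z) y := by
  have e1 : (fun i z => Wd φ e z * gr (Gm φ e) u i z) = fun i z => Wd φ e z * gr (eu n) u i z +
      -1 * (φ z ^ 2 / Wd φ e z * D e u z * gr (eu n) (ht e) i z) := by
    funext i z
    have := (W_pos φ e z).ne'
    rw [gr_gb met_eu, ← D]
    field_simp
    ring
  have g1 := fun i => (met_eu.sm_gr hu i).diff y
  have g2 := fun i => (met_eu.sm_gr (sm_ht e) i).diff y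
  have s1 := (sm_H hφ hu e).diff y
  have s2 := (sm_W hφ e).diff y
  rw [lap, dv_gb met_eu, mul_div_cancel₀ _ (W_pos φ e y).ne', e1,
    met_eu.dv_add (fun i => s2.fun_mul (g1 i)) fun i => (s1.fun_mul (g2 i)).const_mul _,
    dv_const_mul, met_eu.dv_smul s2 g1, met_eu.dv_smul s1 g2, ← ip_eq_gr, ← ip_eq_gr, ip_ht', ← lap,
    ← lap, lap_ht]
  ring

/-- the same without divergences -/
theorem lap_Gm' (he : ‖e‖ = 1) (hφ : Smooth φ) (hu : Smooth u) (y : E n) :
    Wd φ e y ^ 2 * lap (Gm φ e) u y = lap (eu n) u y + φ y ^ 2 * lp e u y +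
      φ y * (ip (eu n) φ u y - (1 + 1 / Wd φ e y ^ 2) * (D e φ y * D e u y)) := by
  have W0 := (W_pos φ e y).ne'
  have h := lap_Gm hφ hu e y
  have e1 : (fun z => φ z ^ 2 / Wd φ e z * D e u z) =
      fun z => (Wd φ e z + -1 * (Wd φ e z)⁻¹) * D e u z := funext fun z => by
    have := (W_pos φ e z).ne'
    rw [show φ z ^ 2 = Wd φ e z ^ 2 - 1 by rw [W_sq he]; ring]
    field_simp
    ring
  have s2 := (sm_W hφ e).diff y
  have e2 : D e (Wd φ e) y = φ y / Wd φ e y * D e φ y := by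
    simp only [D_eq, pd_W he hφ, Finset.mul_sum, mul_left_comm]
  rw [e1, D_mul (s2.fun_add ((s2.fun_inv W0).const_mul _)) ((sm_D hu e).diff y),
    D_add s2 ((s2.fun_inv W0).const_mul _), D_const_mul, D_comp (hasDerivAt_inv W0) s2, e2,
    ip_of_pd (pd_W he hφ · y) (v' := u) (t := 1) fun _ => (one_mul _).symm] at h
  rw [lp, sq, mul_assoc, h, show φ y ^ 2 = Wd φ e y ^ 2 - 1 by rw [W_sq he]; ring]
  field_simp
  ring

end Vale.Agent.P366Z.Sb
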