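import Vale.Agent.P366Q.S.Defs
import Vale.Agent.P366H.Far
import Vale.Agent.P366M.End1

/-!
# P366Q, block S: the scaling laws
-/

open MeasureTheory Metric Filter Topology Set
open scoped ContDiff ENNReal
open Vale.Agent.P366 Vale.Agent.P366.Stmt Vale.Agent.P366Z
open Vale.Agent.P366H (pd_scale lap_scale asy_scale)

noncomputable section

namespace Vale.Agent.P366Z.Scl

variable {n : ℕ} (G : Field n) (c : ℝ) (u w : E n → ℝ) (y : E n)

theorem chr_sc (k i j : Fin n) :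
    chr (fun z => G (c • z)) k i j = fun y => c * chr G k i j (c • y) := by
  funext y
  have e : ∀ a b d, pd a (fun z => G (c • z) b d) y = c * pd a (fun z => G z b d) (c • y) :=
    fun a b d => pd_scale (fun z => G z b d) c a y
  simp only [chr, e, ← mul_div_assoc, Finset.mul_sum]
  exact congrArg (· / 2) (Finset.sum_congr rfl fun l _ => by
    rw [show up (fun z => G (c • z)) k l y = up G k l (c • y) from rfl]; ring)

theorem scal_sc : scal (fun z => G (c • z)) y = c ^ 2 * scal G (c • y) := by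
  simp only [scal, chr_sc, pd_const_mul, pd_scale, Finset.mul_sum]
  refine Finset.sum_congr rfl fun i _ => Finset.sum_congr rfl fun j _ =>
    Finset.sum_congr rfl fun k _ => ?_
  rw [show up (fun z => G (c • z)) i j y = up G i j (c • y) from rfl]
  simp only [mul_add, Finset.mul_sum]
  exact congrArg₂ _ (by ring) (Finset.sum_congr rfl fun l _ => by ring)

theorem gr_sc (i : Fin n) :
    gr (fun z => G (c • z)) (fun z => u (c • z)) i y = c * gr G u i (c • y) := by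
  simp only [gr, pd_scale, Finset.mul_sum]
  exact Finset.sum_congr rfl fun j _ => by
    rw [show up (fun z => G (c • z)) i j y = up G i j (c • y) from rfl]; ring

theorem wl_sc (a : ℝ) : wl (fun z => G (c • z)) (fun z => a * w (c • z)) (fun z => u (c • z)) y =
    a ^ 2 * c ^ 2 * wl G w u (c • y) := by
  have e : ∀ i, pd i (fun z => dens (fun z => G (c • z)) z * ((a * w (c • z)) ^ 2 *
      gr (fun z => G (c • z)) (fun z => u (c • z)) i z)) y =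
      a ^ 2 * c ^ 2 * pd i (fun z => dens G z * (w z ^ 2 * gr G u i z)) (c • y) := fun i => by
    rw [sq c, ← mul_assoc, mul_assoc _ c, ← pd_scale, ← pd_const_mul]
    refine congrArg (pd i · y) (funext fun z => ?_)
    rw [gr_sc, show dens (fun z => G (c • z)) z = dens G (c • z) from rfl]
    ring
  simp only [wl, dv, e, ← mul_div_assoc, Finset.mul_sum]
  rfl

theorem lap_sc (a : ℝ) :
    lap (fun z => G (c • z)) (fun z => a * u (c • z)) y = a * c ^ 2 * lap G u (c • y) := by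
  have := wl_sc G c u (fun _ => 1) y 1
  simp only [mul_one, wl_one] at this
  rw [lap_const_mul, this]
  ring

theorem cl_sc (a : ℝ) :
    cl (fun z => G (c • z)) (fun z => a * u (c • z)) y = a * c ^ 2 * cl G u (c • y) := by
  rw [cl, cl, lap_sc, scal_sc]
  ring

variable {G c u w y}

theorem sm_sc (hu : Smooth u) (c : ℝ) : Smooth fun z => u (c • z) :=
  ContDiff.comp hu (contDiff_const_smul c)

theorem met_sc (hG : Met G) (c : ℝ) : Met fun z => G (c • z) :=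
  ⟨fun i j => sm_sc (hG.sm i j) c, fun _ => hG.sy _, fun _ => hG.pos _⟩

theorem fd_sc (hu : DifferentiableAt ℝ u (c • y)) :
    ‖fderiv ℝ (fun z => u (c • z)) y‖ ≤ |c| * ‖fderiv ℝ u (c • y)‖ := by
  have h : HasFDerivAt (fun z => u (c • z)) _ y :=
    hu.hasFDerivAt.comp y ((hasFDerivAt_id y).const_smul c)
  rw [h.fderiv, mul_comm]
  refine (ContinuousLinearMap.opNorm_comp_le _ _).trans (mul_le_mul_of_nonneg_left ?_
    (norm_nonneg _))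
  rw [norm_smul, Real.norm_eq_abs]
  exact mul_le_of_le_one_right (abs_nonneg _) ContinuousLinearMap.norm_id_le

end Vale.Agent.P366Z.Scl

namespace Vale.Agent.P366M.G

open P366Z.Scl

/-- `Ky` at the scale `ρ` -/
structure Kz {n : ℕ} (w : E n → ℝ) (a β : ℝ) (G : Field n) (m b : E n → ℝ) (ρ R₁ R₂ ε : ℝ) :
    Prop where
  a0 : 0 < a
  asy : P366Z.Asy w a β
  far : ∃ S, ∀ y, ρ ≤ ‖y‖ → |P366Z.lap (P366Z.eu n) w y| ≤ S * ‖y‖ ^ (-(n + 2) : ℝ)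
  lipQ : ∃ C, ∀ y, ρ < ‖y‖ → ‖fderiv ℝ (fun z => P366Z.lap (P366Z.eu n) w z / w z) y‖ ≤ C
  met : P366Z.Met G
  R1 : ρ < R₁
  R2 : R₁ ≤ R₂
  smm : Stmt.Smooth m
  smb : Stmt.Smooth b
  out : ∀ y, ‖y‖ ≤ R₁ ∨ R₂ ≤ ‖y‖ → G y = P366Z.eu n y ∧ m y = 0
  cst : ∃ c, ∀ y, ‖y‖ ≤ R₁ → b y = c
  bd : ∀ y, 0 ≤ b y ∧ b y ≤ ε
  ε1 : ε ≤ 1 / 50
  lip : ∃ C, ∀ y, ‖fderiv ℝ b y‖ ≤ C
  lim : Tendsto b (cocompact (E n)) (𝓝 0)
  sup : ∀ y, R₁ ≤ ‖y‖ → P366Z.wl G w b y ≤ -(2 * |m y|)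
  pos : ∀ y, ρ < ‖y‖ → 4 * gam n * m y < w y * P366Z.cl G w y

variable {n : ℕ} {w m b : E n → ℝ} {G : Field n} {β R₁ R₂ ε ρ a : ℝ}

theorem asy_mul (h : P366Z.Asy w 1 β) (a : ℝ) : P366Z.Asy (fun y => a * w y) a (a * β) := by
  obtain ⟨C, R, h⟩ := h
  refine ⟨|a| * C, R, fun x hx => ⟨?_, fun i => ?_⟩⟩
  · have := mul_le_mul_of_nonneg_left (h x hx).1 (abs_nonneg a)
    rw [← abs_mul, ← mul_assoc] at this
    exact le_of_eq_of_le (congrArg _ (by ring)) this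
  · have := mul_le_mul_of_nonneg_left ((h x hx).2 i) (abs_nonneg a)
    rw [← abs_mul, ← mul_assoc] at this
    rw [P366Z.pd_const_mul]
    exact le_of_eq_of_le (congrArg _ (by ring)) this

theorem Ky.kz (H : Ky w β G m b R₁ R₂ ε) (hρ : 0 < ρ) (ha : 0 < a) :
    Kz (fun y => a * w (ρ⁻¹ • y)) a (a * (β * ρ⁻¹ ^ (2 - n : ℝ))) (fun y => G (ρ⁻¹ • y))
      (fun y => a ^ 2 * ρ⁻¹ ^ 2 * m (ρ⁻¹ • y)) (fun y => b (ρ⁻¹ • y)) ρ (ρ * R₁) (ρ * R₂) ε := by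
  have c0 := inv_pos.2 hρ
  have e : ∀ y : E n, ‖ρ⁻¹ • y‖ = ρ⁻¹ * ‖y‖ := fun y => by rw [norm_smul, Real.norm_of_nonneg c0.le]
  have k1 : ∀ {y : E n} {r}, ρ * r ≤ ‖y‖ → r ≤ ‖ρ⁻¹ • y‖ := fun h => by rwa [e, le_inv_mul_iff₀ hρ]
  have k2 : ∀ {y : E n} {r}, ‖y‖ ≤ ρ * r → ‖ρ⁻¹ • y‖ ≤ r := fun h => by rwa [e, inv_mul_le_iff₀ hρ]
  have k3 : ∀ {y : E n}, ρ < ‖y‖ → 1 < ‖ρ⁻¹ • y‖ := fun h => by
    rwa [e, lt_inv_mul_iff₀ hρ, mul_one]
  have l : ∀ y, P366Z.lap (P366Z.eu n) (fun y => a * w (ρ⁻¹ • y)) y =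
      a * ρ⁻¹ ^ 2 * P366Z.lap (P366Z.eu n) w (ρ⁻¹ • y) := fun y => lap_sc (P366Z.eu n) _ w y a
  obtain ⟨S, hS⟩ := H.far
  obtain ⟨Q, hQ⟩ := H.lipQ
  obtain ⟨c, hc⟩ := H.cst
  obtain ⟨L, hL⟩ := H.lip
  refine ⟨ha, asy_mul (asy_scale H.asy c0) a, ⟨a * ρ⁻¹ ^ 2 * (S * ρ⁻¹ ^ (-(n + 2) : ℝ)),
    fun y hy => ?_⟩, ⟨ρ⁻¹ ^ 2 * (|ρ⁻¹| * Q), fun y hy => ?_⟩, met_sc H.met _,
    by simpa using mul_lt_mul_of_pos_left H.R1 hρ, mul_le_mul_of_nonneg_left H.R2 hρ.le,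
    ContDiff.mul contDiff_const (sm_sc H.smm _), sm_sc H.smb _, fun y hy => ?_,
    ⟨c, fun y hy => hc _ (k2 hy)⟩, fun y => H.bd _, H.ε1, ⟨|ρ⁻¹| * L, fun y =>
      (fd_sc (H.smb.diff _)).trans (mul_le_mul_of_nonneg_left (hL _) (abs_nonneg _))⟩,
    H.lim.comp fun s hs => ?_, fun y hy => ?_, fun y hy => ?_⟩
  · have := hS _ (k1 (r := 1) (by rwa [mul_one]))
    rw [e, Real.mul_rpow c0.le (norm_nonneg _), ← mul_assoc] at this
    rw [l, abs_mul, abs_of_pos (by positivity), mul_assoc (_ * _)]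
    exact mul_le_mul_of_nonneg_left this (by positivity)
  · have d : DifferentiableAt ℝ (fun z => P366Z.lap (P366Z.eu n) w z / w z) (ρ⁻¹ • y) :=
      Stmt.Smooth.diff (ContDiff.div (met_eu.sm_lap H.smw) H.smw fun z => (H.w0 z).ne') _
    have e1 : (fun z => P366Z.lap (P366Z.eu n) (fun y => a * w (ρ⁻¹ • y)) z / (a * w (ρ⁻¹ • z))) =
        fun z => ρ⁻¹ ^ 2 * (P366Z.lap (P366Z.eu n) w (ρ⁻¹ • z) / w (ρ⁻¹ • z)) := by
      funext z
      rw [l, mul_assoc, mul_div_mul_left _ _ ha.ne', mul_div_assoc]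
    have d' : DifferentiableAt ℝ (fun z => P366Z.lap (P366Z.eu n) w (ρ⁻¹ • z) / w (ρ⁻¹ • z)) y :=
      d.comp y (f := fun z => ρ⁻¹ • z) (by fun_prop)
    rw [e1, fderiv_const_mul d', norm_smul, Real.norm_of_nonneg (by positivity)]
    exact mul_le_mul_of_nonneg_left ((fd_sc d).trans (mul_le_mul_of_nonneg_left (hQ _ (k3 hy))
      (abs_nonneg _))) (by positivity)
  · obtain ⟨h1, h2⟩ := H.out (ρ⁻¹ • y) (hy.imp k2 k1)
    exact ⟨h1, by rw [h2, mul_zero]⟩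
  · obtain ⟨R, hR⟩ := ev_cocompactE.1 hs
    exact ev_cocompactE.2 ⟨ρ * R, fun y hy => hR _ (k1 hy)⟩
  · rw [wl_sc, abs_mul, abs_of_pos (by positivity : 0 < a ^ 2 * ρ⁻¹ ^ 2)]
    linarith [mul_le_mul_of_nonneg_left (H.sup _ (k1 hy)) (by positivity : 0 ≤ a ^ 2 * ρ⁻¹ ^ 2)]
  · rw [cl_sc]
    linarith [mul_lt_mul_of_pos_left (H.pos _ (k3 hy)) (by positivity : 0 < a ^ 2 * ρ⁻¹ ^ 2)]

end Vale.Agent.P366M.G
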