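import Vale.Agent.P366Q.O.Rows
import Vale.Agent.P366H.Far
import Vale.Agent.P366M.End4

/-!
# P366Q, block S: the row `MASSR`
-/

open MeasureTheory Metric Filter Topology Set
open scoped ContDiff ENNReal
open Vale.Agent.P366 Vale.Agent.P366.Stmt Vale.Agent.P366Z

noncomputable section

namespace Vale.Agent.P366M.G

variable {n : ℕ}

/-- multiples of an expansion -/
theorem zasy_mul {u : E n → ℝ} {a β : ℝ} (h : P366Z.Asy u a β) (c : ℝ) :
    P366Z.Asy (fun y => c * u y) (c * a) (c * β) := by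
  obtain ⟨C, R, h⟩ := h
  refine ⟨|c| * C, R, fun y hy => ?_⟩
  obtain ⟨h1, h2⟩ := h y hy
  refine ⟨?_, fun i => ?_⟩
  · rw [mul_assoc |c|]
    refine le_of_eq_of_le ?_ (mul_le_mul_of_nonneg_left h1 (abs_nonneg c))
    rw [← abs_mul]
    congr 1
    ring
  · rw [mul_assoc |c|, P366Z.pd_const_mul]
    refine le_of_eq_of_le ?_ (mul_le_mul_of_nonneg_left (h2 i) (abs_nonneg c))
    rw [← abs_mul]
    congr 1
    ring

/-- scaling of an expansion -/
theorem zasy_scale {u : E n → ℝ} {a β l : ℝ} (h : P366Z.Asy u a β) (hl : 0 < l) (c : ℝ) :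
    P366Z.Asy (fun y => c * u (l⁻¹ • y)) (c * a) (c * β * l ^ (n - 2 : ℝ)) := by
  have h1 := zasy_mul (P366H.asy_scale h (inv_pos.2 hl)) c
  rwa [Real.inv_rpow hl.le, ← Real.rpow_neg hl.le, neg_sub, ← mul_assoc] at h1

/-- the expansion of the scaled copy of the end -/
theorem asy_rig {M M' : Type} [Mfe n M] [Mfe n M'] {v : M → ℝ} {v' : M' → ℝ} {R a β l c : ℝ}
    (hl : 0 < l) (e : ∀ y : E n, R ≤ ‖y‖ → fe v' (l • y) = c * fe v y) (h : Asy v a β) :
    Asy v' (c * a) (c * β * l ^ (n - 2 : ℝ)) := by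
  refine asy_iff.2 (asy_congr (R := l * R) (fun y hy => ?_) (zasy_scale (asy_iff.1 h) hl c))
  have h1 : R ≤ ‖l⁻¹ • y‖ := by
    rw [norm_smul, Real.norm_of_nonneg (inv_pos.2 hl).le, le_inv_mul_iff₀ hl]
    exact hy
  rw [← e _ h1, smul_inv_smul₀ hl.ne']

/-- data with room are data of the positive mass theorem -/
theorem Pr.pm {M : Type} [Mfe n M] {g₀ : Fld n M} {v f h : M → ℝ} {O : Set M} {ρ θ a β : ℝ}
    (H : Pr g₀ v f O h ρ θ) (a0 : 0 < a) (hA : Asy v a β) : P366D.Pm g₀ v f O h ρ a β θ where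
  met := H.met
  flat := H.flat
  smv := H.smv
  v0 := H.v0
  a0 := a0
  asy := hA
  smf := H.smf
  shd := ⟨H.opn, H.smh, H.h0, H.cls, fun x hx => by
    have h1 := H.pos x hx
    have h2 : 0 ≤ gn (cf v g₀) h x := Real.sqrt_nonneg _
    nlinarith [sq_nonneg (h x)], H.big⟩
  out := H.out

/-- **MASSR** -/
theorem massr_of (hP : P366D.PMTI) : MASSR := by
  intro n M _ v R a β hn _ a0 hR hA
  obtain ⟨θ, θ0, H⟩ := hP n hn
  obtain ⟨M', _, g₀, v', f, O, h, l, c, l0, c0, h1, h2⟩ := hR θ θ0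
  have h3 := H M' g₀ v' f O h _ _ _ (h1.pm (mul_pos c0 a0) (asy_rig l0 h2 hA))
  have h4 : 0 < c * l ^ (n - 2 : ℝ) := by positivity
  rw [mul_right_comm] at h3
  exact (mul_nonneg_iff_of_pos_left h4).1 h3

end Vale.Agent.P366M.G
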