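import Vale.Agent.P366Q.S.Sc
import Vale.Agent.P366Z.Int

/-!
# P366Q, block S: the potential of the perturbed metric
-/

open MeasureTheory Metric Filter Topology Set
open scoped ContDiff ENNReal
open Vale.Agent.P366.Stmt

noncomputable section

namespace Vale.Agent.P366Z.Sb

open Vale.Agent.P366Y.C (gb ww)
open Nw

variable {n : ℕ} {e y : E n} {w χ φ : E n → ℝ} {τ : ℝ}

theorem sm_ph (hw : Smooth w) (h0 : ∀ y, 0 < w y) (hχ : Smooth χ) (τ : ℝ) : Smooth (ph τ χ w) :=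
  ContDiff.mul (contDiff_const.mul hχ) (hw.rpow h0 _)

theorem ph_nonneg (h0 : ∀ y, 0 < w y) (hχ : ∀ y, 0 ≤ χ y) (hτ : 0 ≤ τ) (y : E n) :
    0 ≤ ph τ χ w y := mul_nonneg (mul_nonneg hτ (hχ y)) (Real.rpow_nonneg (h0 y).le _)

theorem ph_zero (h : χ y = 0) : ph τ χ w y = 0 := by rw [ph, h, mul_zero, zero_mul]

theorem sm_mm (hφ : Smooth φ) (hw : Smooth w) (e : E n) : Smooth (mm φ w e) :=
  ContDiff.add (ContDiff.div_const (ContDiff.mul hw (ContDiff.add (contDiff_const.mul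
    ((met_Gm hφ e).sm_lap hw)) (ContDiff.mul (met_Gm hφ e).sm_scal hw))) _)
    (ContDiff.div (ContDiff.mul hw (met_eu.sm_lap hw)) (contDiff_const.add (ContDiff.pow hφ 2))
      fun z => by positivity)

theorem mm_zero (hn : 3 ≤ n) (h : ∀ᶠ z in 𝓝 y, φ z = 0) : mm φ w e y = 0 := by
  have k : Gm φ e =ᶠ[𝓝 y] eu n := h.mono fun z hz => Gm_zero hz e
  have := one_lt_gam hn
  rw [mm, cl, lap_of_ev k, scal_of_ev k, scal_eu, h.self_of_nhds]
  field_simp
  ring

theorem pd_ph (hw : Smooth w) (h0 : ∀ y, 0 < w y) (hχ : Smooth χ) (i : Fin n) :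
    pd i (ph τ χ w) y = τ * w y ^ (-(2 * gam n)) * pd i χ y +
      -(2 * gam n) * ph τ χ w y * (w y)⁻¹ * pd i w y := by
  unfold ph
  rw [pd_mul ((hχ.diff y).const_mul τ) ((hw.rpow h0 _).diff y), pd_const_mul,
    pd_rpow (hw.diff y) (h0 y).ne', Real.rpow_sub_one (h0 y).ne']
  ring

theorem D_ph (hw : Smooth w) (h0 : ∀ y, 0 < w y) (hχ : Smooth χ) :
    D e (ph τ χ w) y = τ * w y ^ (-(2 * gam n)) * D e χ y +
      -(2 * gam n) * ph τ χ w y * (w y)⁻¹ * D e w y := ip_of_pd_add' (pd_ph hw h0 hχ)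

theorem pw_le (hn : 3 ≤ n) {t : ℝ} (ht : 1 / 8 ≤ t) : t ^ (-(2 * gam n)) ≤ 4096 := by
  refine (Real.rpow_le_rpow_of_nonpos (by norm_num) ht (by linarith [one_lt_gam hn])).trans ?_
  rw [Real.rpow_neg (by norm_num), ← Real.inv_rpow (by norm_num)]
  refine (Real.rpow_le_rpow_of_exponent_le (by norm_num)
    (show 2 * gam n ≤ ((4 : ℕ) : ℝ) by push_cast; linarith [gam_le hn])).trans ?_
  rw [Real.rpow_natCast]
  norm_num

/-- the polynomial in `mm` -/
def Gp (g : ℝ) (v : Fin 11 → ℝ) : ℝ :=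
  v 10 * (-(4 * g) * v 0 * (v 3 * v 2) * (v 2 * v 4 - 2 * g * v 3 * v 2 * v 1 * v 5 -
      (1 + v 10) * ((v 2 * v 7 - 2 * g * v 3 * v 2 * v 1 * v 8) * v 8)) -
    2 * v 0 ^ 2 * (v 2 ^ 2 * (v 9 / 2 - v 6 + v 7 ^ 2) +
      v 3 ^ 2 * v 2 ^ 2 * (2 * g * (2 * g + 1)) * v 1 ^ 2 * (v 5 - v 8 ^ 2) -
      4 * g * v 3 * v 2 ^ 2 * v 1 * (v 4 - v 7 * v 8) +
      v 10 * (v 2 ^ 2 * v 6 - 4 * g * v 3 * v 2 ^ 2 * v 1 * v 4 + (2 * g * v 3 * v 2 * v 1) ^ 2 * v 5 -
        (v 2 * v 7 - 2 * g * v 3 * v 2 * v 1 * v 8) ^ 2))) / (4 * g)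

theorem mm_eq (hn : 3 ≤ n) (he : ‖e‖ = 1) (hw : Smooth w) (h0 : ∀ y, 0 < w y) (hχ : Smooth χ)
    (χ0 : ∀ y, 0 ≤ χ y) (hτ : 0 ≤ τ) (y : E n) : mm (ph τ χ w) w e y = τ ^ 2 * Gp (gam n)
      ![w y, (w y)⁻¹, w y ^ (-(2 * gam n)), χ y, ip (eu n) χ w y, ip (eu n) w w y, ip (eu n) χ χ y,
        D e χ y, D e w y, lp e (fun z => χ z ^ 2) y, (Wd (ph τ χ w) e y ^ 2)⁻¹] := by
  have sφ := sm_ph hw h0 hχ τ
  have h1 := lap_Gm' he sφ hw y
  have h2 := sc n _ e sφ (ph_nonneg h0 χ0 hτ) he y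
  have h3 := lp_W he sφ y
  have h4 : lp e (ph τ χ w) y = _ := (congrArg (lp e · y) (funext fun z => mul_assoc τ (χ z) _)).trans
    (lp_const_mul τ)
  have h5 := lp_mul (e := e) (y := y) hχ hχ
  have d := Real.hasDerivAt_rpow_const (p := -(2 * gam n)) (Or.inl (h0 y).ne')
  rw [lp_mul hχ (hw.rpow h0 _), lp_rpow hw h0, ip_comp_right d (hw.diff y), D_comp d (hw.diff y),
    Real.rpow_sub (h0 y) _ 2, Real.rpow_two, Real.rpow_sub_one (h0 y).ne'] at h4
  rw [ip_of_pd_add (pd_ph hw h0 hχ), D_ph hw h0 hχ] at h1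
  rw [ip_of_pd_add (pd_ph hw h0 hχ), ip_of_pd_add' (pd_ph hw h0 hχ), ip_of_pd_add' (pd_ph hw h0 hχ),
    D_ph hw h0 hχ, h4, met_eu.ip_sy w χ] at h3
  simp only [← sq] at h5
  have W0 := (W_pos (ph τ χ w) e y).ne'
  have w0 := (h0 y).ne'
  have g0 : gam n ≠ 0 := by linarith [one_lt_gam hn]
  have e1 : lap (Gm (ph τ χ w) e) w y = _ := (eq_div_iff (pow_ne_zero 2 W0)).2 ((mul_comm _ _).trans h1)
  have e2 : scal (Gm (ph τ χ w) e) y = -2 * (Wd (ph τ χ w) e y * lp e (Wd (ph τ χ w) e) y) /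
      Wd (ph τ χ w) e y ^ 2 := by
    rw [eq_div_iff (pow_ne_zero 2 W0)]
    linear_combination Wd (ph τ χ w) e y * h2
  rw [mm, cl, e1, e2, h3, ← W_sq he, Gp]
  simp only [Matrix.cons_val, h5, ph]
  field_simp
  ring

/-- **PTA** -/
theorem pta : PTA := by
  intro n A B hn
  obtain ⟨K, hK⟩ : ∃ K, K = 4096 + (|A| + |B|) + (|A| + |B|) ^ 2 := ⟨_, rfl⟩
  obtain ⟨C, hC⟩ := (isCompact_closedBall (0 : Fin 11 → ℝ) K).exists_bound_of_continuousOn
    (f := Gp (gam n)) (Continuous.continuousOn (by unfold Gp; fun_prop))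
  have A0 := abs_nonneg A
  have B0 := abs_nonneg B
  refine ⟨|C| + 4096 * (1 + |B| + 32 * |A|), by positivity,
    fun w χ e τ hw h0 hχ χ0 he τ0 τ1 y w1 w2 w3 χ1 χ2 χ3 => ?_⟩
  have k0 : 0 < w y ^ (-(2 * gam n)) := Real.rpow_pos_of_pos (h0 y) _
  have k1 := pw_le hn w1
  have i0 : 0 < (w y)⁻¹ := inv_pos.2 (h0 y)
  have i1 : (w y)⁻¹ ≤ 8 := inv_le_of_inv_le₀ (by norm_num) (by linarith)
  have a1 := w3.trans (le_abs_self A)
  have b1 := χ2.trans (le_abs_self B)
  have p1 : ph τ χ w y ≤ τ * 4096 :=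
    mul_le_mul (mul_le_of_le_one_right τ0.le χ1) k1 k0.le τ0.le
  have p0 := ph_nonneg h0 χ0 τ0.le y
  refine ⟨?_, by rw [abs_of_nonneg p0]; nlinarith [abs_nonneg C], ?_⟩
  · rw [mm_eq hn he hw h0 hχ χ0 τ0.le, abs_mul, abs_of_nonneg (sq_nonneg τ), mul_comm]
    refine mul_le_mul_of_nonneg_right ((hC _ ?_).trans ((le_abs_self C).trans
      (le_add_of_nonneg_right (by positivity)))) (sq_nonneg τ)
    have q : ∀ u v : E n → ℝ, gn (eu n) u y ≤ |A| + |B| → gn (eu n) v y ≤ |A| + |B| →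
        |ip (eu n) u v y| ≤ K := fun u v hu hv => (met_eu.abs_ip_le u v y).trans
      ((mul_le_mul hu hv (gn_nonneg _ _ _) (by positivity)).trans (by rw [hK]; nlinarith))
    have K1 : 4096 + (|A| + |B|) ≤ K := by rw [hK]; nlinarith
    have W1 := one_le_pow₀ (n := 2) (one_le_W (ph τ χ w) e y)
    rw [mem_closedBall_zero_iff, pi_norm_le_iff_of_nonneg (by linarith)]
    intro i
    fin_cases i <;> simp only [Real.norm_eq_abs]
    · exact abs_le.2 ⟨by simp; linarith, by simp; linarith [le_abs_self A]⟩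
    · exact abs_le.2 ⟨by simp; linarith, by simp; linarith⟩
    · exact abs_le.2 ⟨by simp; linarith, by simp; linarith⟩
    · exact abs_le.2 ⟨by simp; linarith [χ0 y], by simp; linarith⟩
    · exact q _ _ (by linarith) (by linarith)
    · exact q _ _ (by linarith) (by linarith)
    · exact q _ _ (by linarith) (by linarith)
    · exact (abs_D_le he χ y).trans (by linarith)
    · exact (abs_D_le he w y).trans (by linarith)
    · exact χ3.trans (by linarith [le_abs_self B])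
    · exact (abs_of_nonneg (by positivity : 0 ≤ (Wd (ph τ χ w) e y ^ 2)⁻¹)).trans_le
        ((inv_le_one_of_one_le₀ W1).trans (by linarith))
  · have g1 := one_lt_gam hn
    have g2 := gam_le hn
    refine (met_eu.gn_add_le (u₁ := fun z => τ * w y ^ (-(2 * gam n)) * χ z)
      (u₂ := fun z => -(2 * gam n) * ph τ χ w y * (w y)⁻¹ * w z) fun i => by
        rw [pd_ph hw h0 hχ, pd_const_mul, pd_const_mul]).trans ?_
    rw [gn_of_pd fun i => pd_const_mul _ i, gn_of_pd fun i => pd_const_mul _ i,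
      abs_of_pos (mul_pos τ0 k0), neg_mul, neg_mul, abs_neg, abs_of_nonneg (by positivity)]
    have c1 : τ * w y ^ (-(2 * gam n)) * gn (eu n) χ y ≤ τ * 4096 * |B| := by
      have := gn_nonneg (eu n) χ y
      gcongr
    have c2 : 2 * gam n * ph τ χ w y * (w y)⁻¹ * gn (eu n) w y ≤ 4 * (τ * 4096) * 8 * |A| := by
      have := gn_nonneg (eu n) w y
      gcongr
      linarith
    nlinarith [abs_nonneg C]

/-- the vector field of the integration by parts -/
def Zf (φ w : E n → ℝ) (e : E n) (i : Fin n) (y : E n) : ℝ :=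
  (4 - 4 * gam n) * (w y * (Wd φ e y - 1)) * gr (eu n) w i y +
    ((4 * gam n * (w y * (φ y ^ 2 / Wd φ e y * D e w y)) + 2 * (w y * w y * D e (Wd φ e) y)) *
      gr (eu n) (ht e) i y + -2 * (w y * w y) * gr (eu n) (Wd φ e) i y)

theorem dv_Zf (hn : 3 ≤ n) (he : ‖e‖ = 1) (hφ : Smooth φ) (φ0 : ∀ y, 0 ≤ φ y) (hw : Smooth w) :
    (∀ i, Smooth (Zf φ w e i)) ∧ ∀ y, 4 * gam n * (mm φ w e y * Wd φ e y) =
      dv (eu n) (Zf φ w e) y - 4 * (Wd φ e y - 1) * (gam n / Wd φ e y + 1) * (w y * lap (eu n) w y) +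
        4 * (gam n - 1) * (Wd φ e y - 1) * ip (eu n) w w y -
        4 * (gam n * φ y ^ 2 * D e w y ^ 2 + w y * φ y * D e φ y * D e w y) / Wd φ e y := by
  have sW := sm_W hφ e
  have sH := sm_H hφ hw e
  have s0 : Smooth fun y => Wd φ e y - 1 := ContDiff.sub sW contDiff_const
  have s1 : Smooth fun y => (4 - 4 * gam n) * (w y * (Wd φ e y - 1)) :=
    contDiff_const.mul (ContDiff.mul hw s0)
  have s2 : Smooth fun y => w y * w y := ContDiff.mul hw hw
  have s3 : Smooth fun y => 4 * gam n * (w y * (φ y ^ 2 / Wd φ e y * D e w y)) :=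
    contDiff_const.mul (ContDiff.mul hw sH)
  have s4 : Smooth fun y => 2 * (w y * w y * D e (Wd φ e) y) :=
    contDiff_const.mul (ContDiff.mul s2 (sm_D sW e))
  have s5 : Smooth fun y => 4 * gam n * (w y * (φ y ^ 2 / Wd φ e y * D e w y)) +
      2 * (w y * w y * D e (Wd φ e) y) := ContDiff.add s3 s4
  have s6 : Smooth fun y => -2 * (w y * w y) := contDiff_const.mul s2
  have g1 := met_eu.sm_gr hw
  have g2 := met_eu.sm_gr (sm_ht e)
  have g3 := met_eu.sm_gr sW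
  refine ⟨fun i => ContDiff.add (ContDiff.mul s1 (g1 i))
    (ContDiff.add (ContDiff.mul s5 (g2 i)) (ContDiff.mul s6 (g3 i))), fun y => ?_⟩
  have h1 := lap_Gm hφ hw e y
  have h2 := sc n φ e hφ φ0 he y
  have h3 : ip (eu n) (fun y => (4 - 4 * gam n) * (w y * (Wd φ e y - 1))) w y = (4 - 4 * gam n) *
      ((Wd φ e y - 1) * ip (eu n) w w y + w y * ip (eu n) (Wd φ e) w y) := by
    rw [ip_of_pd_add (s := (4 - 4 * gam n) * (Wd φ e y - 1)) (t := (4 - 4 * gam n) * w y) (u₁ := w)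
      (u₂ := Wd φ e) fun i => by
        rw [pd_const_mul, pd_mul (hw.diff y) (s0.diff y), pd_sub_const]; ring]
    ring
  have h4 : ip (eu n) (fun y => -2 * (w y * w y)) (Wd φ e) y = -4 * w y * ip (eu n) (Wd φ e) w y := by
    rw [ip_of_pd (s := -4 * w y) (t := 1) (u' := w) (v' := Wd φ e) (fun i => by
      rw [pd_const_mul, pd_mul (hw.diff y) (hw.diff y)]; ring) fun _ => (one_mul _).symm,
      met_eu.ip_sy w, mul_one]
  have W0 := (W_pos φ e y).ne'
  have g0 : gam n ≠ 0 := by linarith [one_lt_gam hn]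
  unfold Zf
  rw [met_eu.dv_add (fun i => (s1.diff y).fun_mul ((g1 i).diff y)) fun i =>
      ((s5.diff y).fun_mul ((g2 i).diff y)).fun_add ((s6.diff y).fun_mul ((g3 i).diff y)),
    met_eu.dv_add (fun i => (s5.diff y).fun_mul ((g2 i).diff y)) fun i =>
      (s6.diff y).fun_mul ((g3 i).diff y), met_eu.dv_smul (s1.diff y) fun i => (g1 i).diff y,
    met_eu.dv_smul (s5.diff y) fun i => (g2 i).diff y,
    met_eu.dv_smul (s6.diff y) fun i => (g3 i).diff y, ← ip_eq_gr, ← ip_eq_gr, ← ip_eq_gr, h3, h4,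
    ip_ht', D_add (s3.diff y) (s4.diff y), D_const_mul, D_const_mul, D_mul (hw.diff y) (sH.diff y),
    D_mul (s2.diff y) ((sm_D sW e).diff y), D_mul (hw.diff y) (hw.diff y), ← lap, ← lap, ← lap,
    lap_ht, D_W he hφ y, mm, cl, ← W_sq he]
  rw [lp] at h2
  have e1 := (eq_div_iff W0).2 ((mul_comm _ _).trans h1)
  have e2 := (eq_div_iff W0).2 ((mul_comm _ _).trans h2)
  rw [e1, e2]
  field_simp
  ring

/-- **PTB** -/
theorem ptb : PTB := by
  intro n A hn
  have g1 := one_lt_gam hn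
  have g2 := gam_le hn
  refine ⟨((|A| + 1) ^ (-(2 * gam n))) ^ 2 / 8, by positivity, (4096 * A) ^ 2 + 1, by positivity,
    fun w χ e τ hw h0 hχ χ0 he τ0 hc hb => ?_⟩
  have sφ := sm_ph hw h0 hχ τ
  have φ0 := ph_nonneg h0 χ0 τ0.le
  obtain ⟨z1, z2⟩ := dv_Zf hn he sφ φ0 hw
  have z3 : ∀ i, HasCompactSupport (Zf (ph τ χ w) w e i) := fun i => hc.mono' fun y hy =>
    subset_tsupport _ fun k => hy (by
      simp [Zf, D_W he sφ, gr_eu, pd_W he sφ, ph_zero k, W_zero (ph_zero k)])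
  have z4 : ∀ i, Integrable (pd i (Zf (ph τ χ w) w e i)) := fun i =>
    ((z1 i).pd i).cont.integrable_of_hasCompactSupport ((z3 i).mono' fun y hy => by
      by_contra k
      exact hy (by rw [pd_congr (notMem_tsupport_iff_eventuallyEq.1 k)]; exact pd_const 0 i y))
  have z5 : Integrable (dv (eu n) (Zf (ph τ χ w) w e)) := by
    rw [funext (dv_eu _)]
    exact integrable_finsetSum _ fun i _ => z4 i
  have z6 : ∫ y, dv (eu n) (Zf (ph τ χ w) w e) y = 0 := by
    simp only [dv_eu]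
    rw [integral_finsetSum _ fun i _ => z4 i]
    exact Finset.sum_eq_zero fun i _ => integral_pd (lip_of_supp ((z1 i).two.of_le (by norm_num))
      (z3 i)) (z3 i) i
  have i1 : Integrable fun y => χ y ^ 2 * D e w y ^ 2 :=
    ((hχ.cont.pow 2).mul ((sm_D hw e).cont.pow 2)).integrable_of_hasCompactSupport
      (hc.mono' fun y hy => subset_tsupport _ fun k => hy (by simp [k]))
  have i2 : Integrable fun y => D e χ y ^ 2 :=
    ((sm_D hχ e).cont.pow 2).integrable_of_hasCompactSupport (hc.mono' fun y hy => by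
      by_contra k
      exact hy (by simp [D_congr (notMem_tsupport_iff_eventuallyEq.1 k), D_eq, Pi.zero_def, pd_const]))
  have i3 : Integrable fun y => mm (ph τ χ w) w e y * dens (Gm (ph τ χ w) e) y :=
    ((sm_mm sφ hw e).cont.mul (met_Gm sφ e).sm_dens.cont).integrable_of_hasCompactSupport
      (hc.mono' fun y hy => by
        by_contra k
        exact hy (by simp [mm_zero hn ((notMem_tsupport_iff_eventuallyEq.1 k).mono
          fun z hz => ph_zero hz)]))
  have i4 : Integrable fun y => τ ^ 2 * (((|A| + 1) ^ (-(2 * gam n))) ^ 2 / 8 *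
      (χ y ^ 2 * D e w y ^ 2) - ((4096 * A) ^ 2 + 1) * D e χ y ^ 2) :=
    ((i1.const_mul _).sub (i2.const_mul _)).const_mul _
  have key := integral_mono (i4.add (z5.div_const (4 * gam n))) i3 fun y => by
      simp only [Pi.add_apply]
      rw [dens_Gm, ← le_sub_iff_add_le, ← mul_le_mul_iff_right₀ (show 0 < 4 * gam n by linarith),
        mul_sub _ (mm _ _ _ _ * _), z2, mul_div_cancel₀ _ (show 4 * gam n ≠ 0 by linarith), D_ph hw h0 hχ]
      by_cases k : χ y = 0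
      · simp only [ph_zero k, W_zero (ph_zero k), k]
        nlinarith [show 0 ≤ 4 * gam n * (τ ^ 2 * (((4096 * A) ^ 2 + 1) * D e χ y ^ 2)) by positivity]
      obtain ⟨w1, w2, w3, w4⟩ := hb y k
      have W1 := one_le_W (ph τ χ w) e y
      have W2 : Wd (ph τ χ w) e y ≤ 2 := abs_le_of_sq_le_sq' (by
        rw [W_sq he]; nlinarith [abs_le.1 w4]) zero_le_two |>.2
      have k1 := pw_le hn w1
      have k2 : (|A| + 1) ^ (-(2 * gam n)) ≤ w y ^ (-(2 * gam n)) :=
        Real.rpow_le_rpow_of_nonpos (h0 y) (by linarith [le_abs_self A]) (by linarith)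
      have k3 : 0 < (|A| + 1) ^ (-(2 * gam n)) := by positivity
      have t1 : 4 * (Wd (ph τ χ w) e y - 1) * (gam n / Wd (ph τ χ w) e y + 1) *
          (w y * lap (eu n) w y) ≤ 0 := mul_nonpos_of_nonneg_of_nonpos (mul_nonneg (by linarith)
        (by positivity)) (mul_nonpos_of_nonneg_of_nonpos (h0 y).le w3)
      have t2 : 0 ≤ 4 * (gam n - 1) * (Wd (ph τ χ w) e y - 1) * ip (eu n) w w y :=
        mul_nonneg (mul_nonneg (by linarith) (by linarith)) (met_eu.ip_nonneg _ _)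
      have w0 := (h0 y).ne'
      generalize Wd (ph τ χ w) e y = W at *
      generalize (|A| + 1) ^ (-(2 * gam n)) = c at *
      have t3 : 4 * (gam n * ph τ χ w y ^ 2 * D e w y ^ 2 + w y * ph τ χ w y *
          (τ * w y ^ (-(2 * gam n)) * D e χ y + -(2 * gam n) * ph τ χ w y * (w y)⁻¹ * D e w y) *
          D e w y) / W = -(τ ^ 2 * (4 * gam n * (w y ^ (-(2 * gam n)) * χ y * D e w y) ^ 2 -
            4 * (w y ^ (-(2 * gam n)) * χ y * D e w y) * (w y ^ (-(2 * gam n)) * w y * D e χ y)) / W) := by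
        unfold ph
        field_simp
        ring
      have t4 : c ^ 2 * (χ y ^ 2 * D e w y ^ 2) ≤ (w y ^ (-(2 * gam n)) * χ y * D e w y) ^ 2 := by
        rw [mul_pow, mul_pow, mul_assoc]
        gcongr
      have t5 : (w y ^ (-(2 * gam n)) * w y * D e χ y) ^ 2 ≤ (4096 * A) ^ 2 * D e χ y ^ 2 := by
        rw [mul_pow]
        have := h0 y
        gcongr
      rw [t3]
      generalize w y ^ (-(2 * gam n)) * χ y * D e w y = P at *
      generalize w y ^ (-(2 * gam n)) * w y * D e χ y = Q at *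
      have t6 : 4 * gam n * (c ^ 2 / 8 * (χ y ^ 2 * D e w y ^ 2) -
          ((4096 * A) ^ 2 + 1) * D e χ y ^ 2) ≤ (4 * gam n * P ^ 2 - 4 * P * Q) / W := by
        have u1 : P ^ 2 - 2 * Q ^ 2 ≤ (4 * gam n * P ^ 2 - 4 * P * Q) / W := by
          rw [le_div_iff₀ (by linarith)]
          nlinarith [sq_nonneg (P - Q), sq_nonneg P, sq_nonneg Q]
        have u2 : 0 ≤ c ^ 2 * (χ y ^ 2 * D e w y ^ 2) := by positivity
        have u3 : 0 ≤ ((4096 * A) ^ 2 + 1) * D e χ y ^ 2 := by positivity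
        nlinarith [sq_nonneg (D e χ y)]
      have t7 := mul_le_mul_of_nonneg_left t6 (sq_nonneg τ)
      rw [mul_div_assoc]
      linarith
  simp only [Pi.add_apply] at key
  rwa [integral_add i4 (z5.div_const _),
    integral_div, z6, zero_div, add_zero, integral_const_mul,
    integral_sub (i1.const_mul _) (i2.const_mul _), integral_const_mul, integral_const_mul] at key

end Vale.Agent.P366Z.Sb
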