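import Vale.Agent.P366Q.S.Calc
import Vale.Agent.P366Y.C.All

/-!
# P366Q, block S: the scalar curvature of the perturbed metric
-/

open MeasureTheory Metric Filter Topology Set
open scoped ContDiff ENNReal
open Vale.Agent.P366.Stmt

noncomputable section

namespace Vale.Agent.P366Z.Sb

open Vale.Agent.P366Y.C (gb ww rb b2 n1 rc tv rb_)
open Nw

variable {n : ℕ} {e y : E n} {u v φ : E n → ℝ}

theorem D_W (he : ‖e‖ = 1) (hφ : Smooth φ) (y : E n) :
    D e (Wd φ e) y = φ y / Wd φ e y * D e φ y := by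
  simp only [D_eq, pd_W he hφ, Finset.mul_sum, mul_left_comm]

theorem lp_W (he : ‖e‖ = 1) (hφ : Smooth φ) (y : E n) : Wd φ e y * lp e (Wd φ e) y =
    φ y * lp e φ y + (ip (eu n) φ φ y - D e φ y ^ 2) / Wd φ e y ^ 2 := by
  have h := lp_mul (e := e) (y := y) (sm_W hφ e) (sm_W hφ e)
  rw [show (fun z => Wd φ e z * Wd φ e z) = fun z => 1 + φ z * φ z from
    funext fun z => by rw [← sq, ← sq, W_sq he], lp_add_const, lp_mul hφ hφ, D_W he hφ,
    ip_of_pd (pd_W he hφ · y) (pd_W he hφ · y)] at h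
  have W0 := (W_pos φ e y).ne'
  have W2 := W_sq he φ y
  field_simp at h ⊢
  linear_combination (-1 / 2) * h + (ip (eu n) φ φ y - D e φ y ^ 2) * W2

theorem sc_pos (he : ‖e‖ = 1) (hφ : Smooth φ) (h0 : ∀ y, 0 < φ y) (y : E n) :
    Wd φ e y * scal (Gm φ e) y = -2 * lp e (Wd φ e) y := by
  have h1 : hess (eu n) (ht e) = fun _ _ _ => 0 := by
    funext x i j
    simp [hess, chr_eu, pd_ht, pd_const]
  have h2 : rc (eu n) = fun _ _ _ => 0 := by
    funext x i j
    simp [rc, chr_eu, pd_const]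
  have h3 : b2 (eu n) (hess (eu n) φ) (ht e) (ht e) y = D e (D e φ) y := by
    rw [D_eq, funext (D_eq e φ)]
    simp only [b2, hess, chr_eu, gr_eu, pd_ht, zero_mul, Finset.sum_const_zero, sub_zero]
    refine Finset.sum_congr rfl fun i _ => ?_
    rw [pd_sum _ fun j _ => ((hφ.pd j).diff y).const_mul _, Finset.mul_sum]
    exact Finset.sum_congr rfl fun j _ => by rw [pd_const_mul]; ring
  have h4 := lp_W he hφ y
  have W0 := (W_pos φ e y).ne'
  have W2 := W_sq he φ y
  rw [rb_ n _ φ _ met_eu hφ (sm_ht e) h0 y, rb, h3, h1, h2, ip_ht', ip_ht', D_ht he, lap_ht, scal_eu]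
  simp only [b2, n1, normSq, zero_mul, mul_zero, Finset.sum_const_zero]
  rw [lp, lp] at h4
  rw [lp]
  field_simp at h4 ⊢
  linear_combination 2 * h4 - 2 * (ip (eu n) φ φ y - D e φ y ^ 2) * W2

theorem sc_congr {ψ : E n → ℝ} (h : φ =ᶠ[𝓝 y] ψ) (e : E n) :
    Wd φ e =ᶠ[𝓝 y] Wd ψ e ∧ Gm φ e =ᶠ[𝓝 y] Gm ψ e :=
  ⟨h.mono fun z hz => by simp only [ww, hz], h.mono fun z hz => by unfold Gm gb; rw [hz]⟩

/-- **SC** -/
theorem sc : SC := by
  intro n φ e hφ h0 he y
  by_cases h : y ∈ closure {z | 0 < φ z}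
  · refine closure_minimal (t := {z | Wd φ e z * scal (Gm φ e) z = -2 * lp e (Wd φ e) z})
      (fun x (hx : 0 < φ x) => ?_) (isClosed_eq ((sm_W hφ e).cont.mul (met_Gm hφ e).sm_scal.cont)
        (continuous_const.mul (sm_lp (sm_W hφ e) e).cont)) h
    have k : φ =ᶠ[𝓝 x] fun z => φ z + Real.smoothTransition (1 - 2 / φ x * φ z) :=
      (hφ.cont.continuousAt.eventually (eventually_gt_nhds (half_lt_self hx))).mono fun z hz => by
        beta_reduce
        rw [Real.smoothTransition.zero_of_nonpos, add_zero]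
        rw [sub_nonpos, div_mul_eq_mul_div, le_div_iff₀ hx]
        linarith
    obtain ⟨k1, k2⟩ := sc_congr k e
    rw [mem_ofPred_eq, k1.eq_of_nhds, scal_of_ev k2, lp_congr k1]
    refine sc_pos (φ := fun z => φ z + Real.smoothTransition (1 - 2 / φ x * φ z)) he
      (ContDiff.add hφ (Real.smoothTransition.contDiff.comp
        (contDiff_const.sub (contDiff_const.mul hφ)))) (fun z => ?_) x
    rcases (h0 z).eq_or_lt with k | k
    · rw [← k, mul_zero, sub_zero, zero_add]
      exact Real.smoothTransition.pos_of_pos one_pos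
    · exact add_pos_of_pos_of_nonneg k (Real.smoothTransition.nonneg _)
  · have k : ∀ᶠ z in 𝓝 y, φ z = 0 := (isClosed_closure.isOpen_compl.eventually_mem h).mono
      fun z hz => (h0 z).eq_or_lt.elim Eq.symm fun k => absurd (subset_closure (s := {z | 0 < φ z}) k) hz
    rw [scal_of_ev (k.mono fun z hz => Gm_zero hz e), scal_eu,
      lp_congr (v := fun _ => 1) (k.mono fun z hz => W_zero hz e), lp_const, mul_zero, mul_zero]

end Vale.Agent.P366Z.Sb
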