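import Vale.Agent.P366Q.S.Defs

/-!
# P366Q, block S: the cut-off function of a long thin tube
-/

open MeasureTheory Metric Filter Topology Set
open scoped ContDiff ENNReal
open Vale.Agent.P366.Stmt

noncomputable section

namespace Vale.Agent.P366Z.Sb

open Nw (ht)

namespace TubeH

variable {n : ℕ} {u w : E n → ℝ} {e x y z : E n}

theorem D_eq (hu : Smooth u) (e : E n) : D e u = fun y => fderiv ℝ u y e := funext fun y => by
  rw [D, ip_eu, fderiv_eq_sum (hu.diff y)]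
  simp only [Nw.pd_ht]

theorem sm_D (hu : Smooth u) (e : E n) : Smooth fun y => fderiv ℝ u y e :=
  (ContDiff.fderiv_right hu le_rfl).clm_apply contDiff_const

theorem fd_comp (hu : Smooth u) (A : E n →L[ℝ] E n) (x y : E n) :
    fderiv ℝ (fun y => u (A (y - x))) y = (fderiv ℝ u (A (y - x))).comp A :=
  ((hu.diff _).hasFDerivAt.comp y
    (A.hasFDerivAt.comp y ((hasFDerivAt_id y).sub_const x))).fderiv

theorem sm_comp (hu : Smooth u) (A : E n →L[ℝ] E n) (x : E n) : Smooth fun y => u (A (y - x)) :=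
  ContDiff.comp hu (A.contDiff.comp (contDiff_id.sub contDiff_const))

theorem dd_le (hu : Smooth u) {A : E n →L[ℝ] E n} (hA : ∀ v, ‖A v‖ ≤ ‖v‖) {B : ℝ}
    (hB : ∀ z, ‖fderiv ℝ (fderiv ℝ u) z‖ ≤ B) (he : ‖e‖ = 1) (x y : E n) :
    |fderiv ℝ (fun z => fderiv ℝ (fun y => u (A (y - x))) z e) y e| ≤ B := by
  have h1 : DifferentiableAt ℝ (fderiv ℝ u) (A (y - x)) :=
    (ContDiff.fderiv_right (m := ∞) hu le_rfl).differentiable (by simp) _
  have h2 := (hA e).trans_eq he
  simp only [fd_comp hu, ContinuousLinearMap.comp_apply]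
  rw [fd_comp (sm_D hu (A e)), ContinuousLinearMap.comp_apply,
    fderiv_clm_apply h1 (differentiableAt_const _)]
  simp only [fderiv_fun_const, Pi.zero_apply, ContinuousLinearMap.comp_zero, zero_add,
    ContinuousLinearMap.flip_apply]
  refine ((fderiv ℝ (fderiv ℝ u) (A (y - x))).le_opNorm₂ (A e) (A e)).trans ?_
  have B0 : 0 ≤ B := (ContinuousLinearMap.opNorm_nonneg _).trans (hB 0)
  calc _ ≤ B * 1 * 1 := by gcongr; exact hB _
    _ = B := by ring

theorem lp_le (hu : Smooth u) {A : E n →L[ℝ] E n} (hA : ∀ v, ‖A v‖ ≤ ‖v‖) {B : ℝ}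
    (hB : ∀ z, ‖fderiv ℝ (fderiv ℝ u) z‖ ≤ B) (he : ‖e‖ = 1) (x y : E n) :
    |lp e (fun y => u (A (y - x))) y| ≤ n * B + B := by
  have s := sm_comp hu A x
  rw [lp, D_eq s, D_eq (sm_D s e), lap_eu]
  refine (abs_sub _ _).trans (add_le_add ((Finset.abs_sum_le_sum_abs _ _).trans
    ((Finset.sum_le_sum (g := fun _ => B) fun i _ => ?_).trans_eq (by simp)))
    (dd_le hu hA hB he x y))
  rw [pd_eq ((s.pd i).diff y), funext fun z => pd_eq (s.diff z) i]
  exact dd_le hu hA hB (by simp) x y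

theorem nsq (he : ‖e‖ = 1) (z : E n) (s : ℝ) :
    ‖z - s • e‖ ^ 2 = ‖z‖ ^ 2 - ht e z ^ 2 + (ht e z - s) ^ 2 := by
  rw [norm_sub_sq_real, inner_smul_right, real_inner_comm, norm_smul, he, mul_one,
    Real.norm_eq_abs, sq_abs, ht]
  ring

/-- the contraction in the direction `e` -/
def ct (a : ℝ) (e : E n) : E n →L[ℝ] E n :=
  ContinuousLinearMap.id ℝ _ - (1 - a) • (innerSL ℝ e).smulRight e

theorem ct_sq (he : ‖e‖ = 1) (a : ℝ) (z : E n) :
    ‖ct a e z‖ ^ 2 = ‖z‖ ^ 2 - ht e z ^ 2 + (a * ht e z) ^ 2 := by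
  have : ct a e z = z - ((1 - a) * ht e z) • e := by simp [ct, ht, smul_smul]
  rw [this, nsq he]
  ring

theorem perp (he : ‖e‖ = 1) (z : E n) : 0 ≤ ‖z‖ ^ 2 - ht e z ^ 2 := by
  simpa using (sq_nonneg _).trans_eq (nsq he z (ht e z))

theorem ct_e (he : ‖e‖ = 1) {a : ℝ} (a0 : 0 ≤ a) : ‖ct a e e‖ = a := by
  have : ht e e = 1 := by rw [ht, real_inner_self_eq_norm_sq, he, one_pow]
  refine (sq_eq_sq₀ (norm_nonneg _) a0).1 ?_
  rw [ct_sq he, he, this]
  ring

theorem ct_le (he : ‖e‖ = 1) {a : ℝ} (a0 : 0 ≤ a) (a1 : a ≤ 1) (z : E n) : ‖ct a e z‖ ≤ ‖z‖ := by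
  refine (abs_le_of_sq_le_sq' ?_ (norm_nonneg _)).2
  rw [ct_sq he]
  nlinarith [mul_nonneg (sq_nonneg (ht e z)) (show 0 ≤ 1 - a ^ 2 by nlinarith)]

/-- the covering of the tube by balls -/
theorem cover (he : ‖e‖ = 1) {σ : ℝ} (hσ : 0 < σ) {N : ℕ} (hN : 0 < N)
    (h : ‖ct (N : ℝ)⁻¹ e (y - x)‖ ≤ σ) :
    y ∈ ⋃ k ∈ Finset.Icc (-(N : ℤ)) N, closedBall (x + (k * σ) • e) (2 * σ) := by
  have N0 : (0 : ℝ) < N := by exact_mod_cast hN
  have h1 := (ct_sq he _ _).symm.trans_le (pow_le_pow_left₀ (norm_nonneg _) h 2)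
  have h2 := perp he (y - x)
  have h3 := abs_le_of_sq_le_sq' (show ((N : ℝ)⁻¹ * ht e (y - x)) ^ 2 ≤ σ ^ 2 by linarith) hσ.le
  rw [inv_mul_le_iff₀ N0, le_inv_mul_iff₀ N0] at h3
  have h4 := Int.floor_le (ht e (y - x) / σ)
  have h5 := Int.lt_floor_add_one (ht e (y - x) / σ)
  refine mem_iUnion₂.2 ⟨⌊ht e (y - x) / σ⌋, Finset.mem_Icc.2 ⟨Int.le_floor.2 ?_,
    Int.floor_le_iff.2 ?_⟩, ?_⟩
  · push_cast
    rw [le_div_iff₀ hσ]
    linarith [h3.1]
  · push_cast
    rw [div_lt_iff₀ hσ]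
    linarith [h3.2]
  · rw [le_div_iff₀ hσ] at h4
    rw [div_lt_iff₀ hσ] at h5
    rw [mem_closedBall, dist_eq_norm, ← sub_sub]
    refine (abs_le_of_sq_le_sq' ?_ (by positivity)).2
    rw [nsq he]
    nlinarith [sq_nonneg ((N : ℝ)⁻¹ * ht e (y - x))]

/-- the estimate along a segment -/
theorem seg (hw : Smooth w) {g : E n → ℝ} (hg : Continuous g) {K η : ℝ} (hK : 0 < K) (hη : 0 < η)
    (h : ∀ t ∈ Ioc (0 : ℝ) K, fderiv ℝ w (z + t • e) e ^ 2 ≤ g (z + t • e))
    (h1 : η ≤ |w (z + K • e) - w z|) : η ^ 2 / K ≤ ∫ t in Ioc 0 K, g (z + t • e) := by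
  have c1 : Continuous fun t : ℝ => z + t • e := by fun_prop
  have d : ∀ t : ℝ, HasDerivAt (fun t : ℝ => w (z + t • e)) (fderiv ℝ w (z + t • e) e) t :=
    fun t => (hw.diff _).hasFDerivAt.comp_hasDerivAt t
      (by simpa using ((hasDerivAt_id t).smul_const e).const_add z)
  have i1 := intervalIntegral.integral_eq_sub_of_hasDerivAt (a := 0) (b := K) (fun t _ => d t)
    (((sm_D hw e).cont.comp c1).intervalIntegrable _ _)
  have i2 : IntervalIntegrable (fun t : ℝ => K / (2 * η) * g (z + t • e)) volume 0 K :=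
    (continuous_const.mul (hg.comp c1)).intervalIntegrable _ _
  have i3 := intervalIntegral.norm_integral_le_of_norm_le (μ := volume) hK.le
    (f := fun t => fderiv ℝ w (z + t • e) e)
    (g := fun t => η / (2 * K) + K / (2 * η) * g (z + t • e)) (.of_forall fun t k => by
      have k1 := h t k
      rw [← sq_abs] at k1
      have k2 : η / (2 * K) + K / (2 * η) * |fderiv ℝ w (z + t • e) e| ^ 2 -
          |fderiv ℝ w (z + t • e) e| = (K * |fderiv ℝ w (z + t • e) e| - η) ^ 2 / (2 * η * K) := by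
        field_simp
        ring
      have k3 : 0 ≤ (K * |fderiv ℝ w (z + t • e) e| - η) ^ 2 / (2 * η * K) := by positivity
      have k4 := mul_le_mul_of_nonneg_left k1 (show 0 ≤ K / (2 * η) by positivity)
      rw [Real.norm_eq_abs]
      linarith) (intervalIntegrable_const.add i2)
  rw [i1, intervalIntegral.integral_add intervalIntegrable_const i2,
    intervalIntegral.integral_const_mul, intervalIntegral.integral_of_le hK.le
      (f := fun t => g (z + t • e))] at i3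
  simp only [zero_smul, add_zero, intervalIntegral.integral_const, sub_zero, smul_eq_mul,
    Real.norm_eq_abs] at i3
  have k : K * (η / (2 * K)) = η / 2 := by field_simp
  have k1 : η / 2 ≤ K / (2 * η) * ∫ t in Ioc 0 K, g (z + t • e) := by linarith
  rw [div_mul_eq_mul_div, le_div_iff₀ (by positivity)] at k1
  rw [div_le_iff₀ hK]
  linarith

/-- the average over a ball -/
theorem avg {g : E n → ℝ} (hg : Continuous g) (g0 : ∀ y, 0 ≤ g y) (hi : Integrable g) {K a r : ℝ}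
    (hK : 0 < K) (a0 : 0 ≤ a) (h : ∀ z ∈ ball x r, a ≤ ∫ t in Ioc 0 K, g (z + t • e)) :
    a * volume.real (ball (0 : E n) r) ≤ K * ∫ y, g y := by
  have c : Continuous fun p : E n × ℝ => g (p.1 + p.2 • e) := by fun_prop
  have i0 : 0 ≤ ∫ y, g y := integral_nonneg g0
  rw [← ENNReal.ofReal_le_ofReal_iff (by positivity), ENNReal.ofReal_mul a0,
    ofReal_measureReal measure_ball_lt_top.ne, ← Measure.addHaar_ball_center volume x]
  calc _ = ∫⁻ _ in ball x r, ENNReal.ofReal a := (setLIntegral_const _ _).symm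
    _ ≤ ∫⁻ z in ball x r, ∫⁻ t in Ioc 0 K, ENNReal.ofReal (g (z + t • e)) := by
      refine setLIntegral_mono' measurableSet_ball fun z hz => ?_
      rw [← ofReal_integral_eq_lintegral_ofReal _ (.of_forall fun _ => g0 _)]
      · exact ENNReal.ofReal_le_ofReal (h z hz)
      · exact Continuous.integrableOn_Ioc (by fun_prop)
    _ = ∫⁻ t in Ioc 0 K, ∫⁻ z in ball x r, ENNReal.ofReal (g (z + t • e)) :=
      lintegral_lintegral_swap (ENNReal.continuous_ofReal.comp c).aemeasurable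
    _ ≤ ∫⁻ _ in Ioc 0 K, ENNReal.ofReal (∫ y, g y) := by
      refine lintegral_mono fun t => (setLIntegral_le_lintegral _ _).trans_eq ?_
      rw [ofReal_integral_eq_lintegral_ofReal hi (.of_forall g0)]
      exact lintegral_add_right_eq_self (fun y => ENNReal.ofReal (g y)) _
    _ = _ := by
      rw [setLIntegral_const, Real.volume_Ioc, sub_zero, mul_comm, ENNReal.ofReal_mul hK.le]

theorem bd1 {V : Type} [NormedAddCommGroup V] [NormedSpace ℝ V] {F : E n → V}
    (hu : ContDiff ℝ ∞ F) (hc : HasCompactSupport F) : ∃ B, ∀ z, ‖fderiv ℝ F z‖ ≤ B :=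
  (hc.fderiv ℝ).exists_bound_of_continuous (hu.continuous_fderiv (by simp))

end TubeH

open TubeH in
/-- **TUBE** -/
theorem tube : TUBE := by
  intro n σ K η _ hσ hK hη
  have V0 : 0 < volume.real (ball (0 : E n) (σ / 2)) :=
    ENNReal.toReal_pos (measure_ball_pos _ _ (by positivity)).ne' measure_ball_lt_top.ne
  refine ⟨η ^ 2 / K * volume.real (ball (0 : E n) (σ / 2)) / (2 * K), by positivity,
    fun ε₁ ε0 => ?_⟩
  obtain ⟨β, β1, β2⟩ : ∃ β : ContDiffBump (0 : E n), β.rIn = 3 / 4 * σ ∧ β.rOut = σ :=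
    ⟨⟨3 / 4 * σ, σ, by positivity, by linarith⟩, rfl, rfl⟩
  have sβ : Smooth β := β.contDiff
  have s2 : Smooth fun z => β z ^ 2 := ContDiff.pow sβ 2
  obtain ⟨B₁, h₁⟩ := bd1 sβ β.hasCompactSupport
  have cs : HasCompactSupport fun z => β z ^ 2 :=
    β.hasCompactSupport.comp_left (g := fun t : ℝ => t ^ 2) (by simp)
  obtain ⟨B₂, h₂⟩ := bd1 (ContDiff.fderiv_right s2 le_rfl) (cs.fderiv ℝ)
  obtain ⟨N, hN⟩ := exists_nat_ge (max 1 (max (4 * K / σ)
    (3 * B₁ ^ 2 * volume.real (closedBall (0 : E n) (2 * σ)) / ε₁)))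
  simp only [max_le_iff] at hN
  obtain ⟨N1, N2, N3⟩ := hN
  have N0 : (0 : ℝ) < N := by linarith
  have a0 : 0 ≤ (N : ℝ)⁻¹ := by positivity
  refine ⟨max B₁ (n * B₂ + B₂), N * σ, fun x e he => ?_⟩
  have hA := ct_le he a0 (inv_le_one_of_one_le₀ N1)
  have sχ := sm_comp sβ (ct (N : ℝ)⁻¹ e) x
  have sup : ∀ y, β (ct (N : ℝ)⁻¹ e (y - x)) ≠ 0 →
      ‖y - x‖ ≤ N * σ ∧ ‖y - x‖ ^ 2 ≤ ht e (y - x) ^ 2 + σ ^ 2 := fun y hy => by
    have k : ‖ct (N : ℝ)⁻¹ e (y - x)‖ < σ := by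
      rw [← mem_ball_zero_iff, ← β2, ← β.support_eq]
      exact hy
    have k1 := (ct_sq he _ _).symm.trans_le (pow_le_pow_left₀ (norm_nonneg _) k.le 2)
    have k2 := perp he (y - x)
    refine ⟨(abs_le_of_sq_le_sq' ?_ (by positivity)).2,
      by linarith [sq_nonneg ((N : ℝ)⁻¹ * ht e (y - x))]⟩
    have k3 := mul_le_mul_of_nonneg_left k1 (sq_nonneg (N : ℝ))
    rw [mul_add, ← mul_pow, mul_inv_cancel_left₀ N0.ne', ← mul_pow] at k3
    nlinarith [mul_nonneg k2 (show 0 ≤ (N : ℝ) ^ 2 - 1 by nlinarith)]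
  refine ⟨fun y => β (ct (N : ℝ)⁻¹ e (y - x)), sχ, fun y => ⟨β.nonneg, β.le_one, ?_,
    (lp_le s2 hA h₂ he x y).trans (le_max_right _ _)⟩, sup, ?_, fun w c c' hw hi h1 h2 => ?_⟩
  · rw [gn_eu (sχ.diff y), fd_comp sβ]
    have B0 : 0 ≤ B₁ := (norm_nonneg _).trans (h₁ 0)
    exact le_max_of_le_left (ContinuousLinearMap.opNorm_le_bound _ B0 fun v =>
      ((fderiv ℝ β (ct (N : ℝ)⁻¹ e (y - x))).le_opNorm (ct (N : ℝ)⁻¹ e v)).trans
        (mul_le_mul (h₁ _) (hA v) (norm_nonneg _) B0))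
  · simp only [D_eq sχ, fd_comp sβ, ContinuousLinearMap.comp_apply]
    rw [← setIntegral_eq_integral_of_forall_compl_eq_zero (s := ⋃ k ∈ Finset.Icc (-(N : ℤ)) N,
      closedBall (x + (k * σ) • e) (2 * σ)) fun y hy => by
        rw [fderiv_of_notMem_tsupport ℝ fun k => hy (cover he hσ (by exact_mod_cast N0)
          (by rwa [β.tsupport_eq, β2, mem_closedBall_zero_iff] at k))]
        simp]
    refine (Real.le_norm_self _).trans ((norm_setIntegral_le_of_norm_le_const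
      (C := (B₁ * (N : ℝ)⁻¹) ^ 2) ((measure_biUnion_finset_le _ _).trans_lt
        (ENNReal.sum_lt_top.2 fun _ _ => measure_closedBall_lt_top)) fun y _ => ?_).trans
      ((mul_le_mul_of_nonneg_left (measureReal_biUnion_finset_le _ _) (sq_nonneg _)).trans ?_))
    · rw [norm_pow]
      refine pow_le_pow_left₀ (norm_nonneg _) (((fderiv ℝ β _).le_opNorm _).trans ?_) 2
      rw [ct_e he a0]
      exact mul_le_mul_of_nonneg_right (h₁ _) a0
    · simp only [Measure.addHaar_real_closedBall_center, Finset.sum_const, Int.card_Icc,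
        nsmul_eq_mul]
      have k : ((((N : ℤ) + 1 - -(N : ℤ)).toNat : ℕ) : ℝ) ≤ 3 * N := by
        have : ((N : ℤ) + 1 - -(N : ℤ)).toNat = 2 * N + 1 := by omega
        rw [this]
        push_cast
        linarith
      rw [div_le_iff₀ ε0] at N3
      calc _ ≤ (B₁ * (N : ℝ)⁻¹) ^ 2 * (3 * N * volume.real (closedBall (0 : E n) (2 * σ))) := by
            gcongr
        _ = 3 * B₁ ^ 2 * volume.real (closedBall (0 : E n) (2 * σ)) / N := by field_simp
        _ ≤ ε₁ := by rw [div_le_iff₀ N0]; linarith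
  · by_contra hc
    have cg : Continuous fun y => β (ct (N : ℝ)⁻¹ e (y - x)) ^ 2 * D e w y ^ 2 :=
      (sχ.cont.pow 2).mul ((D_eq hw e ▸ (sm_D hw e).cont).pow 2)
    have k := avg (x := x) (e := e) (r := σ / 2) cg (fun y => by positivity)
      (cg.integrable_of_hasCompactSupport (.intro (isCompact_closedBall x (N * σ)) fun y hy => by
        rw [not_not.1 fun k => hy (mem_closedBall_iff_norm.2 (sup y k).1)]
        simp)) hK (show 0 ≤ η ^ 2 / K by positivity) fun z hz => seg hw cg hK hη (fun t k => ?_) ?_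
    · have k1 := k.trans (mul_le_mul_of_nonneg_left hi hK.le)
      rw [mul_div_assoc', le_div_iff₀ (by positivity)] at k1
      nlinarith [mul_pos hK (mul_pos (show 0 < η ^ 2 / K by positivity) V0)]
    · rw [β.one_of_mem_closedBall, D_eq hw, one_pow, one_mul]
      rw [mem_closedBall_zero_iff, add_sub_right_comm, map_add, map_smul]
      refine (norm_add_le _ _).trans ?_
      rw [norm_smul, ct_e he a0, Real.norm_of_nonneg k.1.le]
      have k1 := (hA _).trans_lt (mem_ball_iff_norm.1 hz)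
      have k2 : t * (N : ℝ)⁻¹ ≤ σ / 4 := by
        rw [div_le_iff₀ hσ] at N2
        rw [mul_inv_le_iff₀ N0]
        linarith [k.2]
      linarith
    · have k1 := abs_le.1 (h1 z (ball_subset_ball (by linarith) hz))
      have k2 := abs_le.1 (h2 (z + K • e) (by
        rw [mem_ball, dist_add_right]
        exact ball_subset_ball (by linarith) hz))
      rcases lt_abs.1 (not_le.1 hc) with k3 | k3
      · exact le_abs.2 (.inr (by linarith))
      · exact le_abs.2 (.inl (by linarith))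

end Vale.Agent.P366Z.Sb
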