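import Vale.Agent.P366Q.S.Stab0
import Vale.Agent.P366Q.S.Bar
import Vale.Agent.P366Q.S.Tube
import Vale.Agent.P366Q.S.Massr
import Vale.Agent.P366M.SkE

/-!
# P366Q, block S: the row `STAB2`
-/

open MeasureTheory Metric Filter Topology Set
open scoped ContDiff
open Vale.Agent.P366.Stmt

noncomputable section

namespace Vale.Agent.P366Z.Sb

open Nw (ht)
open P366M.G (KEY NEG RigE Ky)

variable {n : ℕ}

/-- the estimate from `KEY` -/
theorem key_le (hK : KEY) (hN : NEG) (hn : 3 ≤ n) {w φ b : E n → ℝ} {u : E n} {β R₁ R₂ L B μ : ℝ}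
    (h₁ : 1 < R₁) (h₂ : R₁ < R₂) (hL : R₁ ≤ L) (μ0 : 0 < μ) (μ1 : 2 * μ * B ≤ 1 / 50)
    (sw : Smooth w) (w0 : ∀ y, 0 < w y) (hr : RigE w) (ha : Asy w 1 β)
    (h1 : ∃ S, ∀ y, 1 ≤ ‖y‖ → |lap (eu n) w y| ≤ S * ‖y‖ ^ (-(n + 2) : ℝ))
    (h2 : ∃ C, ∀ y, 1 < ‖y‖ → ‖fderiv ℝ (fun z => lap (eu n) w z / w z) y‖ ≤ C)
    (hu : ‖u‖ = 1) (sφ : Smooth φ) (sp : ∀ y, ‖y‖ < R₂ ∨ L < ‖y‖ → φ y = 0)
    (all : ∀ y, |mm φ w u y| ≤ μ ∧ |φ y| ≤ 1) (sb : Smooth b)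
    (b0 : ∀ y, 0 ≤ b y ∧ b y ≤ B ∧ ‖fderiv ℝ b y‖ ≤ B) (b1 : ∃ c, ∀ y, ‖y‖ ≤ R₁ → b y = c)
    (b2 : Tendsto b (cocompact (E n)) (𝓝 0)) (hb : ∀ y, R₁ ≤ ‖y‖ → wl (Gm φ u) w b y ≤ 0 ∧
      (R₂ ≤ ‖y‖ → ‖y‖ ≤ L → wl (Gm φ u) w b y ≤ -1)) :
    ∫ y, mm φ w u y * dens (Gm φ u) y ≤ (n - 2) * omega n * β +
      2 * μ * B * (μ * 2 * volume.real (closedBall (0 : E n) L)) := by
  have op : IsOpen {y : E n | ‖y‖ < R₂ ∨ L < ‖y‖} :=
    (isOpen_lt continuous_norm continuous_const).union (isOpen_lt continuous_const continuous_norm)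
  have m0 : ∀ y, ‖y‖ < R₂ ∨ L < ‖y‖ → mm φ w u y = 0 := fun y hy =>
    mm_zero hn ((op.eventually_mem hy).mono sp)
  have Λ0 : 0 < 2 * μ := by positivity
  have g1 := one_lt_gam hn
  refine (hK n w β (Gm φ u) (mm φ w u) (fun y => 2 * μ * b y) R₁ (L + 1) (2 * μ * B) hn
    { smw := sw
      w0 := w0
      rig := hr
      asy := ha
      far := h1
      lipQ := h2
      met := met_Gm sφ u
      R1 := h₁
      R2 := by linarith
      smm := sm_mm sφ sw u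
      smb := contDiff_const.mul sb
      out := fun y hy => by
        have k : ‖y‖ < R₂ ∨ L < ‖y‖ := hy.imp (by intro; linarith) (by intro; linarith)
        exact ⟨Gm_zero (sp y k) u, m0 y k⟩
      cst := b1.imp' (2 * μ * ·) fun c h y hy => by rw [h y hy]
      bd := fun y => ⟨mul_nonneg Λ0.le (b0 y).1, mul_le_mul_of_nonneg_left (b0 y).2.1 Λ0.le⟩
      ε1 := μ1
      lip := ⟨2 * μ * B, fun y => by
        rw [fderiv_const_mul (sb.diff y), norm_smul, Real.norm_of_nonneg Λ0.le]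
        exact mul_le_mul_of_nonneg_left (b0 y).2.2 Λ0.le⟩
      lim := by simpa only [mul_zero] using b2.const_mul (2 * μ)
      sup := fun y hy => by
        rw [wl_const_mul]
        by_cases k : ‖y‖ < R₂ ∨ L < ‖y‖
        · rw [m0 y k, abs_zero, mul_zero, neg_zero]
          exact mul_nonpos_of_nonneg_of_nonpos Λ0.le (hb y hy).1
        · rw [not_or, not_lt, not_lt] at k
          linarith [mul_le_mul_of_nonneg_left ((hb y hy).2 k.1 k.2) Λ0.le, (all y).1]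
      pos := fun y hy => by
        have k := div_neg_of_neg_of_pos (mul_neg_of_pos_of_neg (w0 y) (hN n w hn hr y hy))
          (show 0 < 1 + φ y ^ 2 by positivity)
        rw [mm, mul_add, mul_div_cancel₀ _ (by linarith)]
        linarith [mul_neg_of_pos_of_neg (show 0 < 4 * gam n by linarith) k] }).trans ?_
  refine add_le_add le_rfl (mul_le_mul_of_nonneg_left ?_
    (mul_nonneg Λ0.le ((b0 0).1.trans (b0 0).2.1)))
  rw [← setIntegral_eq_integral_of_forall_compl_eq_zero (s := closedBall 0 L) fun y hy => by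
    rw [m0 y (.inr (by simpa using hy)), abs_zero, zero_mul]]
  refine (Real.le_norm_self _).trans (norm_setIntegral_le_of_norm_le_const
    measure_closedBall_lt_top fun y _ => ?_)
  have k : Wd φ u y ≤ 2 := by
    have := abs_le.1 (all y).2
    exact (abs_le_of_sq_le_sq' (by rw [W_sq hu]; nlinarith) zero_le_two).2
  rw [dens_Gm, norm_mul, Real.norm_eq_abs, abs_abs, Real.norm_of_nonneg (W_pos _ _ _).le]
  exact mul_le_mul (all y).1 k (W_pos _ _ _).le μ0.le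

/-- a small mass forces a small energy in the tube -/
theorem core (hK : KEY) (hN : NEG) (hn : 3 ≤ n) (A : ℝ) {R₁ R₂ ε : ℝ} (h₁ : 1 < R₁) (h₂ : R₁ < R₂)
    (ε0 : 0 < ε) : ∃ ε₁ > (0 : ℝ), ∀ B L : ℝ, R₁ ≤ L → ∃ e > (0 : ℝ),
      ∀ (w χ : E n → ℝ) (u : E n) (β : ℝ), Smooth w → (∀ y, 0 < w y) → RigE w → Asy w 1 β → β ≤ e →
      (∃ S, ∀ y, 1 ≤ ‖y‖ → |lap (eu n) w y| ≤ S * ‖y‖ ^ (-(n + 2) : ℝ)) →
      (∃ C, ∀ y, 1 < ‖y‖ → ‖fderiv ℝ (fun z => lap (eu n) w z / w z) y‖ ≤ C) →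
      (∀ y, R₁ ≤ ‖y‖ → 1 / 8 ≤ w y ∧ w y ≤ A ∧ gn (eu n) w y ≤ A / ‖y‖ ^ 2) → ‖u‖ = 1 → Smooth χ →
      (∀ y, 0 ≤ χ y ∧ χ y ≤ 1 ∧ gn (eu n) χ y ≤ B ∧ |lp u (fun z => χ z ^ 2) y| ≤ B) →
      (∀ y, ‖y‖ < R₂ ∨ L < ‖y‖ → χ y = 0) → ∫ y, D u χ y ^ 2 ≤ ε₁ →
      ∫ y, χ y ^ 2 * D u w y ^ 2 ≤ ε := by
  have n3 : (3 : ℝ) ≤ n := by exact_mod_cast hn
  obtain ⟨c, c0, C, C0, hB⟩ := ptb n A hn
  refine ⟨c * ε / 3 / C, by positivity, fun B L hL => ?_⟩
  obtain ⟨b, Bb, sb, b0, b1, b2, hb⟩ := bar n A R₁ R₂ L hn h₁.le h₂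
  obtain ⟨C', C1, hP⟩ := pta n A B hn
  obtain ⟨V, hV⟩ : ∃ V, V = volume.real (closedBall (0 : E n) L) := ⟨_, rfl⟩
  have V0 : 0 ≤ V := hV ▸ measureReal_nonneg
  have B0 : 0 ≤ Bb := (b0 0).1.trans (b0 0).2.1
  obtain ⟨τ, ⟨⟨⟨τ1, τ2⟩, τ3⟩, τ4⟩, τ0⟩ := (((((small (a := 1) one_pos).and
    (small (a := C') one_pos)).and (small (a := 2 * C' * Bb) (b := 1 / 50) (by positivity))).and
    (small (a := 2 * C' * Bb * (C' * 2 * V)) (b := c * ε / 3) (by positivity))).and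
    self_mem_nhdsWithin).exists
  have τ0 : 0 < τ := τ0
  rw [one_mul] at τ1
  have τ5 : τ ^ 2 ≤ τ := by nlinarith
  obtain ⟨e, e2, e0⟩ := ((small (a := (n - 2) * omega n)
    (b := τ ^ 2 * (c * ε / 3)) (by positivity)).and self_mem_nhdsWithin).exists
  refine ⟨e, e0, fun w χ u β sw w0 hr ha hβ h1 h2 hw hu sχ χ0 sp χ2 => ?_⟩
  have sφ := sm_ph sw w0 sχ τ
  have all : ∀ y, |mm (ph τ χ w) w u y| ≤ C' * τ ^ 2 ∧ |ph τ χ w y| ≤ C' * τ ∧
      gn (eu n) (ph τ χ w) y ≤ C' * τ := fun y => by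
    rcases lt_or_ge ‖y‖ R₂ with hy | hy
    · have ev : ∀ᶠ z in 𝓝 y, ph τ χ w z = 0 :=
        ((isOpen_lt continuous_norm continuous_const).eventually_mem hy).mono fun z hz =>
          ph_zero (sp z (.inl hz))
      rw [mm_zero hn ev, ev.self_of_nhds, gn_congr (u' := fun _ => 0) ev,
        gn_zero fun i => by simp only [pd_const], abs_zero]
      exact ⟨by positivity, by positivity, by positivity⟩
    · obtain ⟨a1, a2, a3⟩ := hw y (h₂.le.trans hy)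
      exact hP w χ u τ sw w0 sχ (fun z => (χ0 z).1) hu τ0 τ1 y a1 a2 (a3.trans (div_le_self
        (by linarith) (one_le_pow₀ (by linarith)))) (χ0 y).2.1 (χ0 y).2.2.1 (χ0 y).2.2.2
  have i1 := key_le hK hN hn h₁ h₂ hL (μ := C' * τ ^ 2) (by positivity)
    (by linarith [mul_le_mul_of_nonneg_left τ5 (show 0 ≤ 2 * C' * Bb by positivity)])
    sw w0 hr ha h1 h2 hu sφ (fun y hy => ph_zero (sp y hy))
    (fun y => ⟨(all y).1, (all y).2.1.trans τ2⟩) sb b0 b1 b2 (hb w _ u sw sφ hu hw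
      (fun y => ⟨(all y).2.1.trans τ2, (all y).2.2.trans τ2⟩) fun y hy => ph_zero (sp y hy))
  have i2 := (hB w χ u τ sw w0 sχ (fun z => (χ0 z).1) hu τ0
    (HasCompactSupport.intro (isCompact_closedBall 0 L) fun y hy =>
      sp y (.inr (by simpa using hy))) fun y hy => by
        have k : R₁ ≤ ‖y‖ := h₂.le.trans (not_lt.1 fun k => hy (sp y (.inl k)))
        exact ⟨(hw y k).1, (hw y k).2.1, (hN n w hn hr y (h₁.trans_le k)).le,
          (all y).2.1.trans τ2⟩).trans i1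
  rw [← hV] at i2
  have a1 := mul_le_mul_of_nonneg_left hβ (show 0 ≤ (n - 2) * omega n from
    mul_nonneg (by linarith) (omega_pos (by omega)).le)
  have a3 := mul_le_mul_of_nonneg_left χ2 C0.le
  rw [mul_div_cancel₀ _ C0.ne'] at a3
  have a5 := mul_le_mul_of_nonneg_left ((mul_le_mul_of_nonneg_left τ5
    (show 0 ≤ 2 * C' * Bb * (C' * 2 * V) by positivity)).trans τ4) (sq_nonneg τ)
  have a7 := le_of_mul_le_mul_left (i2.trans (show _ ≤ τ ^ 2 * (2 * (c * ε / 3)) by linarith))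
    (by positivity)
  exact le_of_mul_le_mul_left (by linarith) c0

/-- the statement at unit scale -/
theorem unit (hK : KEY) (hN : NEG) (hn : 3 ≤ n) (C₀ : ℝ) {δ η : ℝ} (hδ : 0 < δ)
    (hη : 0 < η) : ∃ e > (0 : ℝ), ∀ (w : E n → ℝ) (β : ℝ), Smooth w → (∀ y, 0 < w y) →
      RigE w → Asy w 1 β → β ≤ e → (∀ y, 1 ≤ ‖y‖ → 1 / 8 ≤ w y ∧ w y ≤ C₀ ∧
        |lap (eu n) w y| ≤ 1 * ‖y‖ ^ (-(n + 2) : ℝ)) →
      (∃ C, ∀ y, 1 < ‖y‖ → ‖fderiv ℝ (fun z => lap (eu n) w z / w z) y‖ ≤ C) →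
      ∀ x, 1 + δ ≤ ‖x‖ → |w x - 1| ≤ η := by
  obtain ⟨A, A0, hA⟩ := bnd hn C₀ (R₁ := 1 + δ / 4) (by linarith)
  obtain ⟨M, M1, M2⟩ : ∃ M : ℝ, 1 + δ / 4 ≤ M ∧ A / M ≤ η / 3 := ⟨1 + δ / 4 + 3 * A / η,
    le_add_of_nonneg_right (by positivity), by
      rw [div_le_iff₀ (by positivity), mul_add, show η / 3 * (3 * A / η) = A by field_simp]
      exact le_add_of_nonneg_left (by positivity)⟩
  obtain ⟨σ, ⟨σ1, σ2⟩, σ0⟩ := (((small (a := 1) (b := δ / 4) (by positivity)).and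
    (small (a := A) (b := η / 3) (by positivity))).and self_mem_nhdsWithin).exists
  have σ0 : 0 < σ := σ0
  obtain ⟨ε, ε0, hT⟩ := tube n σ (M + σ) (η / 3) (by omega) σ0 (by linarith) (by positivity)
  obtain ⟨ε₁, ε1, hC⟩ := core hK hN hn A (R₁ := 1 + δ / 4) (R₂ := 1 + δ / 2) (by linarith)
    (by linarith) ε0
  obtain ⟨B, L, hT⟩ := hT ε₁ ε1
  obtain ⟨e, e0, hC⟩ := hC B (max (L + M) (1 + δ / 4)) (le_max_right _ _)
  refine ⟨e, e0, fun w β sw w0 hr ha hβ h1 h2 x hx => ?_⟩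
  have hw := hA w sw h1 (AsyF.lim1 hn ha)
  have far : ∀ y, M ≤ ‖y‖ → |w y - 1| ≤ η / 3 := fun y hy => (hw y (M1.trans hy)).2.1.trans
    ((div_le_div_of_nonneg_left A0.le (by linarith) hy).trans M2)
  rcases le_total M ‖x‖ with hM | hM
  · linarith [far x hM]
  obtain ⟨u, hu, ux⟩ := ex_orth hn x
  obtain ⟨χ, sχ, χ0, χ1, χ2, hχ⟩ := hT x u hu
  have k := hχ w (w x) 1 sw (hC w χ u β sw w0 hr ha hβ ⟨1, fun y hy => (h1 y hy).2.2⟩ h2
    (fun y hy => ⟨(h1 y (by linarith)).1, (hw y hy).1, (hw y hy).2.2⟩) hu sχ χ0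
    (fun y hy => ?_) χ2) (fun y hy => ?_) fun y hy => far y ?_
  · linarith
  · by_contra h
    have a1 := tube_far hu ux σ0.le (χ1 y h).2
    have a2 := norm_sub_norm_le y x
    rcases hy with hy | hy
    · linarith
    · linarith [(χ1 y h).1, le_max_left (L + M) (1 + δ / 4)]
  · have a1 := (convex_ball x σ).norm_image_sub_le_of_norm_fderiv_le (f := w) (C := A)
      (fun z _ => sw.diff z) (fun z hz => by
        have a2 : 1 + δ / 4 ≤ ‖z‖ := by linarith [norm_sub_norm_le x z, mem_ball_iff_norm'.1 hz]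
        rw [← gn_eu (sw.diff z)]
        exact (hw z a2).2.2.trans (div_le_self A0.le (one_le_pow₀ (by linarith))))
      (mem_ball_self σ0) hy
    exact a1.trans ((mul_le_mul_of_nonneg_left (mem_ball_iff_norm.1 hy).le A0.le).trans σ2)
  · linarith [norm_sub_norm_le (x + (M + σ) • u) y, mem_ball_iff_norm'.1 hy,
      (norm_le_orth hu ux (M + σ)).2, le_abs_self (M + σ)]

/-- a positive function which is the identity on `[1 / 16, ∞)` -/
theorem ex_pos : ∃ F : ℝ → ℝ, ContDiff ℝ ∞ F ∧ (∀ t, 0 < F t) ∧ ∀ t, 1 / 16 < t → F t = t := by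
  refine ⟨fun t => Real.smoothTransition (16 * t) * (t - 1) + 1, by fun_prop, fun t => ?_,
    fun t h => by simp only [Real.smoothTransition.one_of_one_le (by linarith : 1 ≤ 16 * t)]; ring⟩
  rcases le_or_gt t 0 with h | h
  · simp [Real.smoothTransition.zero_of_nonpos (by linarith : 16 * t ≤ 0)]
  · have a1 := Real.smoothTransition.nonneg (16 * t)
    have a2 := Real.smoothTransition.le_one (16 * t)
    rcases a2.eq_or_lt with a3 | a3
    · simpa [a3]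
    · nlinarith [mul_nonneg a1 h.le]

end Vale.Agent.P366Z.Sb

open Vale.Agent.P366Z
open Vale.Agent.P366 hiding E

namespace Vale.Agent.P366M.G

/-- **STAB2** -/
theorem stab_of (hK : KEY) (hN : NEG) : STAB2 := by
  intro n C₀ δ η hn hδ hη
  obtain ⟨e', e0, hu⟩ := Sb.unit hK hN hn C₀ hδ hη
  obtain ⟨e, e0, e1, e2⟩ : ∃ e > (0 : ℝ), e ≤ 1 ∧ e ≤ e' :=
    ⟨min 1 e', lt_min one_pos e0, min_le_left _ _, min_le_right _ _⟩
  obtain ⟨F, sF, F0, F1⟩ := Sb.ex_pos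
  refine ⟨e, e0, fun M _ v a β R S hR a0 sv hS h1 ⟨C, h2⟩ hA ⟨hr, a', β', _, hA', hβ⟩ x hx => ?_⟩
  obtain ⟨rfl, rfl⟩ := hA.unique hn hA'
  have R8 := R0_ge M
  have R0' : 0 < R := by linarith
  have nr : ∀ y : E n, ‖R • y‖ = R * ‖y‖ := fun y => by rw [norm_smul, Real.norm_of_nonneg R0'.le]
  have n1 : ∀ y : E n, 1 ≤ ‖y‖ → R ≤ ‖R • y‖ := fun y hy => by
    rw [nr]; exact le_mul_of_one_le_right R0'.le hy
  have p1 : ∀ y : E n, 1 ≤ ‖y‖ → px (yp (R • y) : M) = R • y := fun y hy =>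
    px_yp (by linarith [n1 y hy])
  have s1 : Stmt.Smooth fun z : E n => a⁻¹ * xfj Mfe.o a v (R • z) :=
    contDiff_const.mul (ContDiff.comp (sv.xfj _ _) (contDiff_id.const_smul R))
  have b1 : ∀ y : E n, 1 ≤ ‖y‖ → 1 / 8 ≤ a⁻¹ * fe v (R • y) ∧ a⁻¹ * fe v (R • y) ≤ C₀ :=
    fun y hy => by
      obtain ⟨a1, a2, -⟩ := h1 (yp (R • y)) (by rw [p1 y hy]; exact n1 y hy)
      exact ⟨by rw [le_inv_mul_iff₀ a0]; exact le_trans (by linarith) a1,
        by rw [inv_mul_le_iff₀ a0]; exact a2.trans (by linarith)⟩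
  obtain ⟨w, sw, w0, ev⟩ : ∃ w : E n → ℝ, Stmt.Smooth w ∧ (∀ y, 0 < w y) ∧
      ∀ y, 1 ≤ ‖y‖ → w =ᶠ[𝓝 y] fun z => a⁻¹ * fe v (R • z) := by
    refine ⟨fun z => F (a⁻¹ * xfj Mfe.o a v (R • z)), sF.comp s1, fun y => F0 _, fun y hy => ?_⟩
    have k : ∀ᶠ z in 𝓝 y, xfj Mfe.o a v (R • z) = fe v (R • z) :=
      (continuous_const_smul R).continuousAt.eventually (xfj_ev (by linarith [n1 y hy]))
    have k2 : ∀ᶠ z in 𝓝 y, 1 / 16 < a⁻¹ * xfj Mfe.o a v (R • z) :=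
      s1.cont.continuousAt.eventually_const_lt (by
        simp only [k.self_of_nhds]; linarith [(b1 y hy).1])
    filter_upwards [k, k2] with z a1 a2
    rw [F1 _ a2, a1]
  have l1 : ∀ y : E n, 1 ≤ ‖y‖ →
      P366Z.lap (P366Z.eu n) w y = a⁻¹ * (R ^ 2 * lap (eu n) v (yp (R • y))) := fun y hy => by
    rw [P366Z.lap_congr (ev y hy), P366Z.lap_const_mul, P366H.lap_scale, yp,
      lap_ye (by linarith [n1 y hy]), fj_eu, fe_eq]
  have key := hu w (a⁻¹ * (β * R ^ (2 - n : ℝ))) sw w0 (fun θ θ0 => ?_) ?_ ?_ (fun y hy => ?_)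
    ⟨R ^ 2 * (R * C), fun y hy => ?_⟩ (R⁻¹ • px x) ?_
  · have x1 : R ≤ ‖px x‖ := by nlinarith
    rw [(ev _ (by rwa [norm_smul, Real.norm_of_nonneg (by positivity), le_inv_mul_iff₀ R0',
      mul_one])).eq_of_nhds, smul_inv_smul₀ R0'.ne', fe, yp_px (by linarith),
      show a⁻¹ * v x - 1 = a⁻¹ * (v x - a) by field_simp, abs_mul, abs_of_pos (inv_pos.2 a0),
      inv_mul_le_iff₀ a0] at key
    linarith
  · obtain ⟨M', _, g₀, v', f, O, h, l, c, l0, c0, q1, q2⟩ := hr θ θ0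
    refine ⟨M', _, g₀, v', f, O, h, l * R, c * a, mul_pos c0 a0, q1, fun y hy => ?_⟩
    rw [mul_smul, q2 _ (n1 y hy), (ev y hy).eq_of_nhds, mul_assoc, mul_inv_cancel_left₀ a0.ne']
  · have k := zasy_mul (P366H.asy_scale (asy_iff.1 hA) R0') a⁻¹
    rw [inv_mul_cancel₀ a0.ne'] at k
    exact asy_congr (R := 1) (fun y hy => (ev y hy).eq_of_nhds) k
  · have k := mul_le_mul_of_nonneg_right hβ
      (show 0 ≤ a ^ bb n * R ^ (2 - n : ℝ) by positivity)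
    have k1 : R ^ (n - 2 : ℝ) * R ^ (2 - n : ℝ) = 1 := by
      rw [← Real.rpow_add R0', sub_add_sub_cancel, sub_self, Real.rpow_zero]
    have k2 : a ^ (-bb n) * a ^ bb n = 1 := by
      rw [← Real.rpow_add a0, neg_add_cancel, Real.rpow_zero]
    rw [Real.rpow_sub_one a0.ne'] at k
    calc _ = β * (a ^ (-bb n) / a) * (a ^ bb n * R ^ (2 - n : ℝ)) := by
          linear_combination (-(a⁻¹ * β * R ^ (2 - n : ℝ))) * k2
      _ ≤ _ := k
      _ = e * (a ^ (-bb n) * a ^ bb n) * (R ^ (n - 2 : ℝ) * R ^ (2 - n : ℝ)) := by ring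
      _ ≤ e' := by rwa [k1, k2, mul_one, mul_one]
  · rw [(ev y hy).eq_of_nhds, l1 y hy]
    refine ⟨(b1 y hy).1, (b1 y hy).2, ?_⟩
    have a3 := (h1 (yp (R • y)) (by rw [p1 y hy]; exact n1 y hy)).2.2
    rw [p1 y hy, nr, Real.mul_rpow R0'.le (norm_nonneg _), ← mul_assoc] at a3
    rw [← mul_assoc, abs_mul, abs_of_pos (by positivity)]
    refine (mul_le_mul_of_nonneg_left a3 (by positivity)).trans ?_
    rw [← mul_assoc]
    refine mul_le_mul_of_nonneg_right ?_ (by positivity)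
    have c1 : a⁻¹ * S ≤ 1 := by
      rw [inv_mul_le_iff₀ a0]
      nlinarith
    have c2 : R ^ 2 * R ^ (-(n + 2) : ℝ) ≤ 1 := by
      rw [← Real.rpow_two, ← Real.rpow_add R0']
      exact Real.rpow_le_one_of_one_le_of_nonpos (by linarith) (by linarith [n.cast_nonneg (α := ℝ)])
    nlinarith [mul_le_mul_of_nonneg_right c1 (show 0 ≤ R ^ 2 * R ^ (-(n + 2) : ℝ) by positivity)]
  · have k : (fun z => P366Z.lap (P366Z.eu n) w z / w z) =ᶠ[𝓝 y]
        R ^ 2 • fun z => fe (fun x => lap (eu n) v x / v x) (R • z) :=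
      (ev_lt_norm hy).mono fun z hz => by
        simp only [l1 z hz.le, (ev z hz.le).eq_of_nhds, mul_div_mul_left _ _ (inv_ne_zero a0.ne'),
          Pi.smul_apply, fe, smul_eq_mul, mul_div_assoc]
    have k2 := h2 (yp (R • y)) (by rw [p1 y hy.le, nr]; exact lt_mul_of_one_lt_right R0' hy)
    rw [yp, fd_ye (by linarith [n1 y hy.le])] at k2
    rw [k.fderiv_eq, fderiv_const_smul_field, Pi.smul_apply, fderiv_comp_smul, norm_smul, norm_smul,
      Real.norm_of_nonneg (sq_nonneg R), Real.norm_of_nonneg R0'.le]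
    gcongr
    exact k2
  · rwa [norm_smul, Real.norm_of_nonneg (by positivity), le_inv_mul_iff₀ R0', mul_comm]

end Vale.Agent.P366M.G
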