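import Vale.Agent.P366Q.S.Pt
import Vale.Agent.P366Z.Newt

/-!
# P366Q, block S: uniform bounds at unit scale
-/

open MeasureTheory Metric Filter Topology Set
open scoped ContDiff
open Vale.Agent.P366.Stmt

noncomputable section

namespace Vale.Agent.P366Z.Sb

open Nw (ht)

variable {n : ℕ} {w : E n → ℝ}

theorem decay (hn : 3 ≤ n) {C M β : ℝ} (hM : 0 ≤ M) (h1 : ∀ x, 1 ≤ ‖x‖ → |w x - 1| ≤ M)
    (h2 : ∀ x, 4 * 1 ≤ ‖x‖ →
      |w x - 1 - β * ‖x‖ ^ (2 - n : ℝ)| ≤ C * (M + 1) * (1 / ‖x‖) ^ (n - 1 : ℝ)) (x : E n)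
    (hx : 1 ≤ ‖x‖) :
    |w x - 1| ≤ ((M + |C| * (M + 1)) * 4 ^ (n - 2 : ℝ) + |C| * (M + 1) + 4 * M) / ‖x‖ := by
  have n3 : (3 : ℝ) ≤ n := by exact_mod_cast hn
  have p1 : 0 ≤ (M + |C| * (M + 1)) * 4 ^ (n - 2 : ℝ) := by positivity
  have p2 : 0 ≤ |C| * (M + 1) := by positivity
  rcases le_total ‖x‖ 4 with h4 | h4
  · rw [le_div_iff₀ (by positivity)]
    nlinarith [h1 x hx, abs_nonneg (w x - 1)]
  have h3 : ∀ x : E n, 4 ≤ ‖x‖ → |w x - 1 - β * ‖x‖ ^ (2 - n : ℝ)| ≤ |C| * (M + 1) * (1 / ‖x‖) :=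
    fun x hx => (h2 x (by linarith)).trans (mul_le_mul (mul_le_mul_of_nonneg_right (le_abs_self C)
      (by positivity)) ((Real.rpow_le_rpow_of_exponent_ge (by positivity)
        (by rw [div_le_one (by positivity)]; linarith) (show 1 ≤ (n - 1 : ℝ) by linarith)).trans_eq
          (Real.rpow_one _)) (by positivity) (by positivity))
  obtain ⟨z, hz⟩ : ∃ z : E n, ‖z‖ = 4 := ⟨(4 / ‖x‖) • x, by
    rw [norm_smul, Real.norm_of_nonneg (by positivity), div_mul_cancel₀ _ (by positivity)]⟩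
  have a1 := h3 z hz.ge
  have a2 := h1 z (by linarith)
  rw [hz] at a1
  have a3 : |β| * 4 ^ (2 - n : ℝ) ≤ M + |C| * (M + 1) := by
    rw [← abs_of_pos (Real.rpow_pos_of_pos four_pos (2 - n : ℝ)), ← abs_mul]
    rw [abs_le] at a1 a2 ⊢
    constructor <;> linarith [a1.1, a1.2, a2.1, a2.2]
  have a4 : |β| ≤ (M + |C| * (M + 1)) * 4 ^ (n - 2 : ℝ) := by
    refine le_trans (le_of_eq ?_) (mul_le_mul_of_nonneg_right a3 (by positivity))
    rw [mul_assoc, ← Real.rpow_add four_pos, sub_add_sub_cancel, sub_self, Real.rpow_zero, mul_one]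
  have a5 : |β * ‖x‖ ^ (2 - n : ℝ)| ≤ (M + |C| * (M + 1)) * 4 ^ (n - 2 : ℝ) * (1 / ‖x‖) := by
    rw [abs_mul, abs_of_pos (Real.rpow_pos_of_pos (by positivity) _), one_div,
      ← Real.rpow_neg_one]
    exact mul_le_mul a4 (Real.rpow_le_rpow_of_exponent_le (by linarith) (by linarith))
      (by positivity) (by positivity)
  have a6 := abs_le.1 (h3 x h4)
  have a7 : 0 ≤ 4 * M * (1 / ‖x‖) := by positivity
  rw [abs_le] at a5 ⊢
  rw [div_eq_mul_one_div, add_mul, add_mul]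
  constructor <;> linarith [a5.1, a5.2, a6.1, a6.2]

/-- the interior gradient bound -/
theorem gn_le_of {ρ M S : ℝ} {y : E n} (hw : Smooth w) (hρ : 0 < ρ) (hM : 0 ≤ M) (hS : 0 ≤ S)
    (h : ∀ z, ‖z - y‖ ≤ ρ → |w z - 1| ≤ M ∧ |lap (eu n) w z| < S) :
    gn (eu n) w y ≤ (n + 1) * (S * ρ + 2 * M / ρ) := by
  have k : ∀ e : E n, ‖e‖ = 1 → fderiv ℝ w y e ≤ (n + 1) * (S * ρ + 2 * M / ρ) := fun e he => by
    have k := Nw.grad_le (f := fun z => w (z - -y) + -1) hρ hM hS he fun z hz => ⟨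
      ((hw.c2 _).comp z (contDiffAt_id.sub contDiffAt_const)).add contDiffAt_const,
      (h _ (by simpa using hz)).1, by
        rw [lap_add_const, lap_eu_translate]
        exact (h _ (by simpa using hz)).2⟩
    rwa [fderiv_add_const, fderiv_comp_sub, zero_sub, neg_neg] at k
  rw [gn_eu (hw.diff y)]
  refine ContinuousLinearMap.opNorm_le_of_unit_norm (by positivity) fun e he => abs_le.2 ⟨?_, k e he⟩
  have := k (-e) (by rwa [norm_neg])
  rw [map_neg] at this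
  linarith

/-- the uniform bounds -/
theorem bnd (hn : 3 ≤ n) (C₀ : ℝ) {R₁ : ℝ} (hR : 1 < R₁) : ∃ A > (0 : ℝ), ∀ w : E n → ℝ,
    Smooth w → (∀ y, 1 ≤ ‖y‖ → 1 / 8 ≤ w y ∧ w y ≤ C₀ ∧
      |lap (eu n) w y| ≤ 1 * ‖y‖ ^ (-(n + 2) : ℝ)) → Tendsto w (cocompact (E n)) (𝓝 1) →
    ∀ y, R₁ ≤ ‖y‖ → w y ≤ A ∧ |w y - 1| ≤ A / ‖y‖ ∧ gn (eu n) w y ≤ A / ‖y‖ ^ 2 := by
  obtain ⟨C, hC⟩ := newt n hn
  obtain ⟨M, hM⟩ : ∃ M, M = |C₀| + 1 := ⟨_, rfl⟩
  have M0 : 0 < M := by rw [hM]; positivity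
  obtain ⟨A, hA⟩ : ∃ A, A = (M + |C| * (M + 1)) * 4 ^ (n - 2 : ℝ) + |C| * (M + 1) + 4 * M :=
    ⟨_, rfl⟩
  have A0 : 0 < A := by rw [hA]; positivity
  obtain ⟨κ, hκ⟩ : ∃ κ, κ = (R₁ - 1) / (2 * R₁) := ⟨_, rfl⟩
  have R0 : 0 < R₁ := by linarith
  have κ0 : 0 < κ := by rw [hκ]; exact div_pos (by linarith) (by positivity)
  have κ1 : κ * R₁ = (R₁ - 1) / 2 := by rw [hκ]; field_simp
  have κ2 : κ ≤ 1 / 2 := by nlinarith
  have p1 : 0 ≤ (n + 1) * (9 * κ + 4 * A / κ) := by positivity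
  refine ⟨M + A + (n + 1) * (9 * κ + 4 * A / κ), by positivity, fun w hw h1 h2 y hy => ?_⟩
  have w2 : ∀ z : E n, 1 ≤ ‖z‖ → |w z - 1| ≤ M := fun z hz =>
    abs_le.2 ⟨by linarith [(h1 z hz).1, abs_nonneg C₀], by linarith [(h1 z hz).2.1, le_abs_self C₀]⟩
  obtain ⟨β, -, h4⟩ := hC w 1 1 M 1 le_rfl hw (fun z hz => ⟨w2 z hz, (h1 z hz).2.2⟩) h2
  have d := fun z hz => (decay hn M0.le w2 h4 z hz).trans_eq (congrArg (· / ‖z‖) hA.symm)
  have y0 : 0 < ‖y‖ := by linarith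
  refine ⟨by linarith [(h1 y (by linarith)).2.1, le_abs_self C₀], (d y (by linarith)).trans
    (div_le_div_of_nonneg_right (by linarith) y0.le), ?_⟩
  refine (gn_le_of (ρ := κ * ‖y‖) (M := 2 * A / ‖y‖) (S := 9 / ‖y‖ ^ 3) hw (by positivity)
    (by positivity) (by positivity) fun z hz => ?_).trans ?_
  · have a1 : ‖y‖ - κ * ‖y‖ ≤ ‖z‖ := by linarith [norm_sub_norm_le y z, norm_sub_rev y z]
    have a2 : ‖y‖ / 2 ≤ ‖z‖ := by nlinarith
    have a3 : 1 ≤ ‖z‖ := by nlinarith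
    refine ⟨(d z a3).trans ((div_le_div_of_nonneg_left A0.le (by positivity) a2).trans_eq
      (by field_simp)), (h1 z a3).2.2.trans_lt ?_⟩
    have n3 : (3 : ℝ) ≤ n := by exact_mod_cast hn
    calc 1 * ‖z‖ ^ (-(n + 2) : ℝ) ≤ ‖z‖ ^ (-((3 : ℕ) : ℝ)) := by
          rw [one_mul]
          exact Real.rpow_le_rpow_of_exponent_le a3 (by push_cast; linarith)
      _ ≤ (‖y‖ / 2) ^ (-((3 : ℕ) : ℝ)) :=
          Real.rpow_le_rpow_of_nonpos (by positivity) a2 (by norm_num)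
      _ = 8 / ‖y‖ ^ 3 := by
          rw [Real.rpow_neg (by positivity), Real.rpow_natCast]
          field_simp
          norm_num
      _ < 9 / ‖y‖ ^ 3 := div_lt_div_of_pos_right (by norm_num) (by positivity)
  · refine le_trans (le_of_eq ?_) (div_le_div_of_nonneg_right
      (show (n + 1) * (9 * κ + 4 * A / κ) ≤ _ by linarith) (by positivity))
    field_simp
    ring

theorem ex_orth (hn : 3 ≤ n) (x : E n) : ∃ e : E n, ‖e‖ = 1 ∧ ht e x = 0 := by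
  obtain ⟨z, hz, z0⟩ := Submodule.exists_mem_ne_zero_of_ne_bot (p := (ℝ ∙ x)ᗮ) fun h => by
    have h1 := finrank_span_le_card (R := ℝ) ({x} : Set (E n))
    rw [Submodule.orthogonal_eq_bot_iff.1 h] at h1
    simp at h1
    omega
  refine ⟨‖z‖⁻¹ • z, norm_smul_inv_norm z0, ?_⟩
  rw [ht, real_inner_smul_left, real_inner_comm,
    Submodule.mem_orthogonal_singleton_iff_inner_right.1 hz, mul_zero]

theorem norm_le_orth {x e : E n} (he : ‖e‖ = 1) (h : ht e x = 0) (t : ℝ) :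
    ‖x‖ ≤ ‖x + t • e‖ ∧ |t| ≤ ‖x + t • e‖ := by
  have k : ‖x + t • e‖ ^ 2 = ‖x‖ ^ 2 + t ^ 2 := by
    rw [norm_add_sq_real, real_inner_smul_right, real_inner_comm, ← ht, h, norm_smul, he]
    simp
  exact ⟨(abs_le_of_sq_le_sq' (by nlinarith) (norm_nonneg _)).2,
    abs_le_of_sq_le_sq (by nlinarith [sq_nonneg ‖x‖]) (norm_nonneg _)⟩

/-- the tube stays outside a ball -/
theorem tube_far {x e y : E n} {σ : ℝ} (he : ‖e‖ = 1) (h : ht e x = 0) (hσ : 0 ≤ σ)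
    (hy : ‖y - x‖ ^ 2 ≤ ht e (y - x) ^ 2 + σ ^ 2) : ‖x‖ - σ ≤ ‖y‖ := by
  have k : ‖(y - x) - ht e (y - x) • e‖ ≤ σ := by
    refine (abs_le_of_sq_le_sq' ?_ hσ).2
    rw [norm_sub_sq_real, real_inner_smul_right, real_inner_comm, ← ht, norm_smul, he, mul_one,
      Real.norm_eq_abs, sq_abs]
    linarith
  have k2 := norm_sub_norm_le (x + ht e (y - x) • e) y
  rw [← norm_neg (_ - y), show -(x + ht e (y - x) • e - y) = (y - x) - ht e (y - x) • e by abel] at k2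
  linarith [(norm_le_orth he h (ht e (y - x))).1]

theorem small {a b : ℝ} (hb : 0 < b) : ∀ᶠ τ in 𝓝[>] (0 : ℝ), a * τ ≤ b :=
  (((continuous_const.mul continuous_id).tendsto' 0 0 (mul_zero a)).eventually_le_const hb).filter_mono
    nhdsWithin_le_nhds

end Vale.Agent.P366Z.Sb
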